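import Vale.Agent.P168.Sync.Strong.Obs

/-!
P168: the law of the position of a new replica given everything below it.
-/

namespace Vale.Agent.P168

open MeasureTheory ProbabilityTheory Finset

variable {L : Lim} {X : ℕ → ℕ → Cube → ℝ}

/-- Boxes determine a measure on places. -/
lemma generateFrom_boxes (k : ℕ) :
    (inferInstance : MeasurableSpace (Place k)) = MeasurableSpace.generateFrom
      (Set.image2 (fun x1 x2 => x1 ×ˢ x2) {s : Set (Fin k → Fin k → ℝ) | MeasurableSet s}
        (Set.univ.pi '' Set.univ.pi fun _ : Fin k => Set.range (Set.Ici : ℝ → Set ℝ))) := by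
  have hspan : IsCountablySpanning (Set.range (Set.Ici : ℝ → Set ℝ)) := by
    refine ⟨fun i : ℕ => Set.Ici (-(i : ℝ)), fun i => ⟨_, rfl⟩, Set.eq_univ_of_forall fun x => ?_⟩
    obtain ⟨i, hi⟩ := exists_nat_ge (-x)
    exact Set.mem_iUnion.2 ⟨i, Set.mem_Ici.2 (by linarith)⟩
  exact (generateFrom_eq_prod MeasurableSpace.generateFrom_measurableSet
    (generateFrom_eq_pi
      (fun _ => (borel_eq_generateFrom_Ici ℝ).symm.trans BorelSpace.measurable_eq.symm)
      fun _ => hspan)
    isCountablySpanning_measurableSet (IsCountablySpanning.pi fun _ => hspan)).symm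

/-- The identity against the conditional law, on boxes. -/
lemma GGTree.strong_box (hX : GGTree L X) {k n : ℕ} (hk : 1 ≤ k) (hkn : k ≤ n) {f : Cube → ℝ}
    (hf : Obs n f) {Cs : Set (Fin k → Fin k → ℝ)} (hCs : MeasurableSet Cs) (t : Fin k → ℝ) :
    (n : ℝ) * ∫ ω, f ω * ind1 (box Cs t) (placeK X k n ω) ∂L.P =
      ∑ l ∈ Ico k n, ∫ ω, f ω * ind1 (box Cs t) (placeK X k l ω) ∂L.P +
        (k : ℝ) * ∫ ω, f ω *
          ∫ p, ind1 (box Cs t) (matS X k ω, p) ∂posLaw L X k (matS X k ω) ∂L.P := by
  obtain ⟨Z, hZm, ⟨D, hD⟩, hZ⟩ := hX.exists_box_fun hk hCs t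
  set ν := L.P.map (matS X k)
  have hν : IsFiniteMeasure ν := inferInstanceAs (IsFiniteMeasure (Measure.map _ _))
  have hmS := hX.measurable_matS' k
  set G : (Fin k → Fin k → ℝ) → ℝ := fun M => ∫ p, ind1 (box Cs t) (M, p) ∂posLaw L X k M with hG
  have : IsMarkovKernel (posLaw L X k) := inferInstanceAs (IsMarkovKernel (condDistrib _ _ _))
  have hbm := measurable_ind1 (measurableSet_box hCs t)
  have hGm : Measurable G :=
    (hbm.stronglyMeasurable.integral_kernel_prod_right' (κ := posLaw L X k)).measurable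
  have hGb : ∀ M, |G M| ≤ 1 := fun M => by
    simpa using norm_integral_le_of_norm_le_const (μ := posLaw L X k M) (C := 1)
      (f := fun p => ind1 (box Cs t) (M, p))
      (Filter.Eventually.of_forall fun p => (Real.norm_eq_abs _).trans_le (abs_ind1_le _ _))
  -- against functions of the matrix
  have hφ : ∀ φ : (Fin k → Fin k → ℝ) → ℝ, Measurable φ → (∃ E, ∀ M, |φ M| ≤ E) →
      ∫ ω, φ (matS X k ω) * Z (matS X k ω) ∂L.P =
        (k : ℝ) * ∫ ω, φ (matS X k ω) * G (matS X k ω) ∂L.P := by
    rintro φ hφm ⟨E, hE⟩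
    have h1 := hZ k le_rfl _ (hX.obs_matS' le_rfl hφm hE)
    simp only [Finset.Ico_self, Finset.sum_empty, zero_add] at h1
    rw [← h1]
    congr 1
    have hint : Integrable (fun q : Place k => φ q.1 * ind1 (box Cs t) q) (ν ⊗ₘ posLaw L X k) :=
      Integrable.mono' (integrable_const |E|) ((hφm.comp measurable_fst).mul hbm).aestronglyMeasurable
        (Filter.Eventually.of_forall fun q => by
          rw [Real.norm_eq_abs, abs_mul]
          exact (mul_le_of_le_one_right (abs_nonneg _) (abs_ind1_le _ _)).trans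
            ((hE _).trans (le_abs_self E)))
    have h2 := Measure.integral_compProd hint
    have hqm : Measurable fun q : Place k => φ q.1 * ind1 (box Cs t) q :=
      (hφm.comp measurable_fst).mul hbm
    have hGφ : Measurable fun M => φ M * G M := hφm.mul hGm
    rw [show ν ⊗ₘ posLaw L X k = L.P.map (fun ω => (matS X k ω, posK X k k ω)) from
      compProd_map_condDistrib (hX.measurable_posK' k k).aemeasurable,
      integral_map (hmS.prodMk (hX.measurable_posK' k k)).aemeasurable
        hqm.aestronglyMeasurable] at h2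
    simp only [integral_const_mul] at h2
    rw [show (fun M => φ M * ∫ b, ind1 (box Cs t) (M, b) ∂posLaw L X k M) = fun M => φ M * G M from rfl,
      integral_map hmS.aemeasurable hGφ.aestronglyMeasurable] at h2
    exact h2
  -- hence the two functions of the matrix agree
  have hZG : ∀ᵐ M ∂ν, Z M = (k : ℝ) * G M := by
    have hdm : Measurable fun M => Z M - (k : ℝ) * G M := hZm.sub (hGm.const_mul _)
    have hdb : ∀ M, |Z M - (k : ℝ) * G M| ≤ D + k := fun M => by
      refine (abs_sub _ _).trans (add_le_add (hD M) ?_)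
      rw [abs_mul, Nat.abs_cast]
      exact mul_le_of_le_one_right (Nat.cast_nonneg k) (hGb M)
    have hb2 : ∀ {u : (Fin k → Fin k → ℝ) → ℝ} {E : ℝ}, Measurable u → (∀ M, |u M| ≤ E) →
        Integrable (fun ω => (Z (matS X k ω) - (k : ℝ) * G (matS X k ω)) * u (matS X k ω)) L.P :=
      fun {u E} hu hub => Integrable.mono' (integrable_const ((D + k) * E))
        ((hdm.mul hu).comp hmS).aestronglyMeasurable (Filter.Eventually.of_forall fun ω => by
          rw [Real.norm_eq_abs, abs_mul]
          exact mul_le_mul (hdb _) (hub _) (abs_nonneg _) ((abs_nonneg _).trans (hdb (matS X k ω))))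
    have h0 := hφ _ hdm ⟨_, hdb⟩
    have hzero : ∫ ω, (Z (matS X k ω) - (k : ℝ) * G (matS X k ω)) ^ 2 ∂L.P = 0 := by
      have e : ∀ ω, (Z (matS X k ω) - (k : ℝ) * G (matS X k ω)) ^ 2 =
          (Z (matS X k ω) - (k : ℝ) * G (matS X k ω)) * Z (matS X k ω) -
            (k : ℝ) * ((Z (matS X k ω) - (k : ℝ) * G (matS X k ω)) * G (matS X k ω)) := fun ω => by ring
      simp only [e]
      rw [integral_sub (hb2 hZm hD) ((hb2 hGm hGb).const_mul _), integral_const_mul, h0, sub_self]
    have hsq : Integrable (fun ω => (Z (matS X k ω) - (k : ℝ) * G (matS X k ω)) ^ 2) L.P := by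
      simpa only [sq] using hb2 hdm hdb
    have h3 := (integral_eq_zero_iff_of_nonneg (fun ω => sq_nonneg _) hsq).1 hzero
    rw [ae_map_iff hmS.aemeasurable (measurableSet_eq_fun hZm (hGm.const_mul _))]
    filter_upwards [h3] with ω hω using sub_eq_zero.1 (pow_eq_zero_iff two_ne_zero |>.1 hω)
  rw [hZ n hkn f hf, ← integral_const_mul]
  congr 1
  refine integral_congr_ae ((ae_of_ae_map hmS.aemeasurable hZG).mono fun ω h => ?_)
  simp only [h, hG]
  ring

/-- The identity for nonnegative observables. -/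
lemma GGTree.strong_nonneg (hX : GGTree L X) {k n : ℕ} (hk : 1 ≤ k) (hkn : k ≤ n) {f : Cube → ℝ}
    (hf : Obs n f) (h0 : ∀ ω, 0 ≤ f ω) {h : Place k → ℝ} (hh : Measurable h) {C : ℝ}
    (hC : ∀ q, |h q| ≤ C) :
    (n : ℝ) * ∫ ω, f ω * h (placeK X k n ω) ∂L.P =
      ∑ l ∈ Ico k n, ∫ ω, f ω * h (placeK X k l ω) ∂L.P +
        (k : ℝ) * ∫ ω, f ω * ∫ p, h (matS X k ω, p) ∂posLaw L X k (matS X k ω) ∂L.P := by
  have hmS := hX.measurable_matS' k
  have hpl : ∀ l, Measurable (placeK X k l) := fun l => hmS.prodMk (hX.measurable_posK' k l)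
  have : IsMarkovKernel (posLaw L X k) := inferInstanceAs (IsMarkovKernel (condDistrib _ _ _))
  have hfE : Measurable fun ω => ENNReal.ofReal (f ω) := hf.measurable_fun.ennreal_ofReal
  set ρ : Measure Cube := L.P.withDensity fun ω => ENNReal.ofReal (f ω)
  have hfin : IsFiniteMeasure ρ :=
    isFiniteMeasure_withDensity_ofReal (hf.integrable_fun L.P).hasFiniteIntegral
  set m1 : Measure (Place k) := (n : ENNReal) • ρ.map (placeK X k n)
  set m2 : Measure (Place k) :=
    ∑ l ∈ Ico k n, ρ.map (placeK X k l) + (k : ENNReal) • ((ρ.map (matS X k)) ⊗ₘ posLaw L X k)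
  have hρ : ∀ g : Cube → ℝ, ∫ ω, g ω ∂ρ = ∫ ω, f ω * g ω ∂L.P := fun g => by
    rw [integral_withDensity_eq_integral_toReal_smul hfE
      (Filter.Eventually.of_forall fun ω => ENNReal.ofReal_lt_top)]
    exact integral_congr_ae (Filter.Eventually.of_forall fun ω => by
      simp only [ENNReal.toReal_ofReal (h0 ω), smul_eq_mul])
  have hf1 : IsFiniteMeasure m1 := Measure.smul_finite _ (ENNReal.natCast_ne_top n)
  have hf2a : IsFiniteMeasure ((k : ENNReal) • ((ρ.map (matS X k)) ⊗ₘ posLaw L X k)) :=
    Measure.smul_finite _ (ENNReal.natCast_ne_top k)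
  have int_eq : ∀ {g : Place k → ℝ}, Measurable g → ∀ {E : ℝ}, (∀ q, |g q| ≤ E) →
      ∫ q, g q ∂m1 = (n : ℝ) * ∫ ω, f ω * g (placeK X k n ω) ∂L.P ∧
      ∫ q, g q ∂m2 = ∑ l ∈ Ico k n, ∫ ω, f ω * g (placeK X k l ω) ∂L.P +
        (k : ℝ) * ∫ ω, f ω * ∫ p, g (matS X k ω, p) ∂posLaw L X k (matS X k ω) ∂L.P := by
    intro g hg E hE
    have hi : ∀ μ : Measure (Place k), IsFiniteMeasure μ → Integrable g μ := fun μ _ =>
      Integrable.mono' (integrable_const E) hg.aestronglyMeasurable
        (Filter.Eventually.of_forall fun q => (Real.norm_eq_abs _).trans_le (hE q))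
    refine ⟨?_, ?_⟩
    · rw [integral_smul_measure, integral_map (hpl n).aemeasurable hg.aestronglyMeasurable, hρ,
        ENNReal.toReal_natCast, smul_eq_mul]
    · rw [integral_add_measure (integrable_finsetSum_measure.2 fun l _ => hi _ inferInstance)
        (hi _ hf2a), integral_finsetSum_measure fun l _ => hi _ inferInstance, integral_smul_measure,
        Measure.integral_compProd (hi _ inferInstance),
        integral_map hmS.aemeasurable
          (hg.stronglyMeasurable.integral_kernel_prod_right' (κ := posLaw L X k)).aestronglyMeasurable,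
        hρ, ENNReal.toReal_natCast, smul_eq_mul]
      congr 1
      exact Finset.sum_congr rfl fun l _ => by
        rw [integral_map (hpl l).aemeasurable hg.aestronglyMeasurable, hρ]
  have hf2 : IsFiniteMeasure m2 := by
    have : IsFiniteMeasure (∑ l ∈ Ico k n, ρ.map (placeK X k l)) := ⟨by
      rw [Measure.coe_finsetSum, Finset.sum_apply]
      exact ENNReal.sum_lt_top.2 fun l _ => measure_lt_top _ _⟩
    exact inferInstanceAs (IsFiniteMeasure (_ + _))
  have heq : m1 = m2 := by
    refine ext_of_generate_finite _ (generateFrom_boxes k)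
      (IsPiSystem.prod MeasurableSpace.isPiSystem_measurableSet (IsPiSystem.pi fun _ => isPiSystem_Ici)) ?_ ?_
    · rintro _ ⟨Cs, hCs, _, ⟨u, hu, rfl⟩, rfl⟩
      choose t ht using fun a => hu a (Set.mem_univ a)
      obtain rfl : u = fun a => Set.Ici (t a) := funext fun a => (ht a).symm
      show m1 (box Cs t) = m2 (box Cs t)
      have hb := measurableSet_box hCs t
      have he := int_eq (measurable_ind1 hb) (abs_ind1_le _)
      rw [← ENNReal.toReal_eq_toReal_iff' (measure_ne_top _ _) (measure_ne_top _ _)]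
      have e : ∀ μ : Measure (Place k), (μ (box Cs t)).toReal = ∫ q, ind1 (box Cs t) q ∂μ := fun μ => by
        rw [ind1, integral_indicator_const _ hb, smul_eq_mul, mul_one]
        rfl
      rw [e, e, he.1, he.2]
      exact hX.strong_box hk hkn hf hCs t
    · have he := int_eq (g := fun _ => (1 : ℝ)) measurable_const (E := 1) fun _ => by simp
      rw [← ENNReal.toReal_eq_toReal_iff' (measure_ne_top _ _) (measure_ne_top _ _)]
      have e : ∀ μ : Measure (Place k), (μ Set.univ).toReal = ∫ _, (1 : ℝ) ∂μ := fun μ => by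
        simp [integral_const, measureReal_def]
      rw [e, e, he.1, he.2]
      simp only [integral_const, probReal_univ, one_smul, mul_one, Finset.sum_const, Nat.card_Ico,
        nsmul_eq_mul, Nat.cast_sub hkn]
      ring
  have he := int_eq hh hC
  rw [← he.1, ← he.2, heq]

/-- The Ghirlanda–Guerra identities for positions. -/
theorem GGTree.strong {L : Lim} {X : ℕ → ℕ → Cube → ℝ} (hX : GGTree L X) {k n : ℕ} (hk : 1 ≤ k)
    (hkn : k ≤ n) {f : Cube → ℝ} (hf : Obs n f) {h : Place k → ℝ} (hh : Measurable h) {C : ℝ}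
    (hC : ∀ q, |h q| ≤ C) :
    (n : ℝ) * ∫ ω, f ω * h (placeK X k n ω) ∂L.P =
      ∑ l ∈ Ico k n, ∫ ω, f ω * h (placeK X k l ω) ∂L.P +
        (k : ℝ) * ∫ ω, f ω * ∫ p, h (matS X k ω, p) ∂posLaw L X k (matS X k ω) ∂L.P := by
  obtain ⟨D, hD⟩ := hf.bdd
  have h1 := hX.strong_nonneg hk hkn (hf.add_fun D)
    (fun ω => by linarith [(abs_le.1 (hD ω)).1]) hh hC
  have h2 := hX.strong_nonneg hk hkn (Obs.const_fun n 1) (fun _ => zero_le_one) hh hC
  have : IsMarkovKernel (posLaw L X k) := inferInstanceAs (IsMarkovKernel (condDistrib _ _ _))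
  have hmS := hX.measurable_matS' k
  have hD0 : 0 ≤ D := (abs_nonneg _).trans (hD fun _ => ⟨0, by norm_num⟩)
  have spl : ∀ {g : Cube → ℝ}, Measurable g → (∀ ω, |g ω| ≤ C) →
      ∫ ω, (f ω + D) * g ω ∂L.P = ∫ ω, f ω * g ω ∂L.P + D * ∫ ω, g ω ∂L.P := fun {g} hg hgC => by
    have ig : Integrable g L.P := Integrable.mono' (integrable_const C) hg.aestronglyMeasurable
      (Filter.Eventually.of_forall fun ω => (Real.norm_eq_abs _).trans_le (hgC ω))
    simp only [add_mul]
    rw [integral_add (ig.bdd_mul hf.measurable_fun.aestronglyMeasurable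
      (c := D) (Filter.Eventually.of_forall fun ω => (Real.norm_eq_abs _).trans_le (hD ω)))
      (ig.const_mul D), integral_const_mul]
  have hgl : ∀ l, Measurable fun ω => h (placeK X k l ω) := fun l =>
    hh.comp (hmS.prodMk (hX.measurable_posK' k l))
  have hgk : Measurable fun ω => ∫ p, h (matS X k ω, p) ∂posLaw L X k (matS X k ω) :=
    (hh.stronglyMeasurable.integral_kernel_prod_right' (κ := posLaw L X k)).measurable.comp hmS
  have hbk : ∀ ω, |∫ p, h (matS X k ω, p) ∂posLaw L X k (matS X k ω)| ≤ C := fun ω => by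
    simpa using norm_integral_le_of_norm_le_const (μ := posLaw L X k (matS X k ω)) (C := C)
      (f := fun p => h (matS X k ω, p))
      (Filter.Eventually.of_forall fun p => (Real.norm_eq_abs _).trans_le (hC _))
  rw [spl (hgl n) (fun ω => hC _), spl hgk hbk,
    Finset.sum_congr rfl fun l _ => spl (hgl l) (fun ω => hC _), Finset.sum_add_distrib,
    ← Finset.mul_sum] at h1
  simp only [one_mul] at h2
  linear_combination h1 - D * h2

/-- The atoms form a measurable set. -/
theorem GGTree.measurableSet_atoms {L : Lim} {X : ℕ → ℕ → Cube → ℝ} (hX : GGTree L X) (k : ℕ) :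
    MeasurableSet (atoms L X k) := by
  have := hX
  have : IsMarkovKernel (posLaw L X k) := inferInstanceAs (IsMarkovKernel (condDistrib _ _ _))
  have h := Kernel.measurable_kernel_prodMk_left (κ := (posLaw L X k).comap Prod.fst measurable_fst)
    (t := {z : Place k × (Fin k → ℝ) | z.2 = z.1.2})
    (measurableSet_eq_fun measurable_snd (measurable_snd.comp measurable_fst))
  exact h (measurableSet_singleton (0 : ENNReal)).compl

end Vale.Agent.P168
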