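import Vale.Agent.P168.Lim
import Mathlib.Probability.Kernel.CondDistrib

/-!
P168: trees of overlaps on a limit, positions of a replica, and their conditional laws.
-/

namespace Vale.Agent.P168

open MeasureTheory ProbabilityTheory Finset

/-- An ultrametric array on a limit with the Ghirlanda–Guerra identities against all observables. -/
structure GGTree (L : Lim) (X : ℕ → ℕ → Cube → ℝ) : Prop where
  obs : ∀ a b n, a < n → b < n → Obs n (X a b)
  mem : ∀ a b ω, X a b ω ∈ Set.Icc (-1 : ℝ) 1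
  nonneg : ∀ a b, a ≠ b → ∀ᵐ ω ∂L.P, 0 ≤ X a b ω
  symm : ∀ a b, ∀ᵐ ω ∂L.P, X a b ω = X b a ω
  ultra : ∀ a b c, a ≠ b → b ≠ c → a ≠ c →
    ∀ᵐ ω ∂L.P, min (X a b ω) (X b c ω) ≤ X a c ω
  equiv : ∀ e : ℕ → ℕ, Function.Injective e → ∀ a b ω, X a b (relabel e ω) = X (e a) (e b) ω
  gg : ∀ (n : ℕ) (f : Cube → ℝ), Obs n f → ∀ (ψ : ℝ → ℝ), Measurable ψ → (∃ C, ∀ t, |ψ t| ≤ C) →
    ∀ l, l < n → (n : ℝ) * ∫ ω, f ω * ψ (X l n ω) ∂L.P =
      (∫ ω, f ω ∂L.P) * (∫ ω, ψ (X 0 1 ω) ∂L.P) +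
        ∑ l' ∈ (Finset.range n).erase l, ∫ ω, f ω * ψ (X l l' ω) ∂L.P

/-- The matrix of the first `k` replicas, with unit diagonal. -/
def matS (X : ℕ → ℕ → Cube → ℝ) (k : ℕ) (ω : Cube) : Fin k → Fin k → ℝ :=
  fun a b => if a = b then 1 else X a b ω

/-- The position of the replica `l` relative to the first `k`. -/
def posK (X : ℕ → ℕ → Cube → ℝ) (k l : ℕ) (ω : Cube) : Fin k → ℝ := fun a => X l a ω

/-- The matrix of the first `k` replicas with the position of one more. -/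
abbrev Place (k : ℕ) := (Fin k → Fin k → ℝ) × (Fin k → ℝ)

/-- The place of the replica `l`. -/
def placeK (X : ℕ → ℕ → Cube → ℝ) (k l : ℕ) (ω : Cube) : Place k := (matS X k ω, posK X k l ω)

/-- The law of the position of replica `k` given the matrix of the first `k`. -/
noncomputable def posLaw (L : Lim) (X : ℕ → ℕ → Cube → ℝ) (k : ℕ) :
    Kernel (Fin k → Fin k → ℝ) (Fin k → ℝ) :=
  condDistrib (posK X k k) (matS X k) L.P

/-- The positions of positive probability given the matrix. -/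
def atoms (L : Lim) (X : ℕ → ℕ → Cube → ℝ) (k : ℕ) : Set (Place k) :=
  {q | posLaw L X k q.1 {q.2} ≠ 0}

/-- A convex combination of all pair overlaps. -/
noncomputable def comb (w : (Σ j : Spc, Finset (Fin j.1)) → ℝ) (a b : ℕ) (ω : Cube) : ℝ :=
  max (-1) (min 1 (∑' i, w i * R i.1 (pair a b i.2) ω))

/-- Strictly positive weights of total one. -/
structure Weights (w : (Σ j : Spc, Finset (Fin j.1)) → ℝ) : Prop where
  pos : ∀ i, 0 < w i
  sum : HasSum w 1

end Vale.Agent.P168
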