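import Vale.Agent.P168.Sync.Ext
import Vale.Agent.P157.Low.Ultra
import Vale.Agent.P168.Induct.Moments

/-!
P168: every convex combination of pair overlaps is an array of overlaps (helper27).
-/

namespace Vale.Agent.P168

open MeasureTheory Set Induct
open scoped symmDiff NNReal ENNReal

noncomputable section

/-- The species of a pair overlap. -/
abbrev PIdx := Σ j : Spc, Finset (Fin j.1)

/-- All pair overlaps of two replicas. -/
def pairs (a b : ℕ) (ω : Cube) : CubeOn PIdx := fun i => ω ⟨i.1, pair a b i.2⟩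

/-- A combination of coordinates, clipped. -/
def cmb (v : PIdx → ℝ) (u : CubeOn PIdx) : ℝ := max (-1) (min 1 (∑' i, v i * (u i : ℝ)))

variable (L : Lim) {v : PIdx → ℝ}

theorem comb_eq_cmb (a b : ℕ) (ω : Cube) : comb v a b ω = cmb v (pairs a b ω) := rfl

theorem measurable_pairs (a b : ℕ) : Measurable (pairs a b) :=
  measurable_pi_lambda _ fun _ => measurable_pi_apply _

theorem abs_term_le (hv0 : ∀ i, 0 ≤ v i) (u : CubeOn PIdx) (i : PIdx) : |v i * (u i : ℝ)| ≤ v i := by
  rw [abs_mul, abs_of_nonneg (hv0 i)]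
  exact mul_le_of_le_one_right (hv0 i) (abs_le.2 (u i).2)

theorem summable_cmb (hv0 : ∀ i, 0 ≤ v i) (hv : HasSum v 1) (u : CubeOn PIdx) :
    Summable fun i => v i * (u i : ℝ) :=
  Summable.of_norm_bounded hv.summable (abs_term_le hv0 u)

theorem measurable_cmb (hv0 : ∀ i, 0 ≤ v i) (hv : HasSum v 1) : Measurable (cmb v) :=
  measurable_const.max (measurable_const.min (Continuous.measurable
    (continuous_tsum (fun i => by fun_prop) hv.summable fun i u => abs_term_le hv0 u i)))

theorem cmb_eq (hv0 : ∀ i, 0 ≤ v i) (hv : HasSum v 1) (u : CubeOn PIdx) :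
    cmb v u = ∑' i, v i * (u i : ℝ) := by
  have hs := summable_cmb hv0 hv u
  have hu : ∑' i, v i * (u i : ℝ) ≤ 1 :=
    (hs.tsum_le_tsum (fun i => (le_abs_self _).trans (abs_term_le hv0 u i)) hv.summable).trans_eq
      hv.tsum_eq
  have hl : -1 ≤ ∑' i, v i * (u i : ℝ) := by
    exact hv.neg.tsum_eq.symm.trans_le
      (hv.summable.neg.tsum_le_tsum (fun i => (abs_le.1 (abs_term_le hv0 u i)).1) hs)
  rw [cmb, min_eq_right hu, max_eq_right hl]

theorem obs_comb (hv0 : ∀ i, 0 ≤ v i) (hv : HasSum v 1) {a b n : ℕ} (ha : a < n) (hb : b < n) :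
    Obs n (comb v a b) := by
  have hP : ∀ i : PIdx, Below n (pair a b i.2) := fun i p hp => by
    simp only [pair, single, Finset.mem_symmDiff, Finset.mem_product, Finset.mem_singleton] at hp
    rcases hp with ⟨⟨h, -⟩, -⟩ | ⟨⟨h, -⟩, -⟩ <;> omega
  refine ⟨⟨fun r => cmb v fun i => r ⟨⟨i.1, pair a b i.2⟩, hP i⟩,
    (measurable_cmb hv0 hv).comp (measurable_pi_lambda _ fun i =>
      measurable_pi_apply (⟨⟨i.1, pair a b i.2⟩, hP i⟩ : {q : Idx // Below n q.2})), rfl⟩,
    1, fun ω => ?_⟩
  exact abs_le.2 ⟨le_max_left _ _, max_le (by norm_num) (min_le_left _ _)⟩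

theorem image_pair {k : ℕ} {e : ℕ → ℕ} (he : Function.Injective e) (a b : ℕ) (B : Finset (Fin k)) :
    (pair a b B).image (fun p : ℕ × Fin k => (e p.1, p.2)) = pair (e a) (e b) B := by
  have h : ∀ l, (single l B).image (fun p : ℕ × Fin k => (e p.1, p.2)) = single (e l) B := by
    intro l
    ext ⟨r, q⟩
    simp only [single, Finset.mem_image, Finset.mem_product, Finset.mem_singleton, Prod.exists,
      Prod.mk.injEq]
    exact ⟨fun ⟨x, y, ⟨hx, hy⟩, h1, h2⟩ => ⟨by rw [← h1, hx], h2 ▸ hy⟩,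
      fun ⟨h1, h2⟩ => ⟨l, q, ⟨rfl, h2⟩, h1.symm, rfl⟩⟩
  have hφ : Function.Injective fun p : ℕ × Fin k => (e p.1, p.2) :=
    he.prodMap Function.injective_id
  rw [pair, Finset.image_symmDiff _ _ hφ, h, h]
  rfl

theorem pairs_relabel {e : ℕ → ℕ} (he : Function.Injective e) (a b : ℕ) (ω : Cube) :
    pairs a b (relabel e ω) = pairs (e a) (e b) ω := by
  funext i
  simp only [pairs, relabel, image_pair he]

theorem pairs_comm (a b : ℕ) (ω : Cube) : pairs a b ω = pairs b a ω := by
  funext i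
  simp only [pairs, pair, symmDiff_comm (single a i.2)]

theorem comb_equiv {e : ℕ → ℕ} (he : Function.Injective e) (a b : ℕ) (ω : Cube) :
    comb v a b (relabel e ω) = comb v (e a) (e b) ω := by
  rw [comb_eq_cmb, comb_eq_cmb, pairs_relabel he]

/-- A function of finitely many coordinates. -/
def Cyl (g : C(CubeOn PIdx, ℝ)) : Prop :=
  ∃ (ι : Type) (_ : Fintype ι) (sp : ι → PIdx) (ψ : (ι → ℝ) → ℝ), Measurable ψ ∧
    (∃ C, ∀ x, |ψ x| ≤ C) ∧ ∀ u, g u = ψ fun i => (u (sp i) : ℝ)

theorem cyl_closure {g : C(CubeOn PIdx, ℝ)}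
    (hg : g ∈ Submonoid.closure (range (coordC (ι := PIdx)))) : Cyl g := by
  induction hg using Submonoid.closure_induction with
  | mem g hg =>
    obtain ⟨i, rfl⟩ := hg
    refine ⟨Unit, inferInstance, fun _ => i, fun x => max (-1) (min 1 (x ())), by fun_prop, ⟨1,
      fun x => abs_le.2 ⟨le_max_left _ _, max_le (by norm_num) (min_le_left _ _)⟩⟩, fun u => ?_⟩
    show (u i : ℝ) = _
    dsimp only
    rw [min_eq_right (u i).2.2, max_eq_right (u i).2.1]
  | one => exact ⟨Empty, inferInstance, Empty.elim, fun _ => 1, measurable_const, ⟨1, by simp⟩,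
      fun u => rfl⟩
  | mul g g' _ _ hg hg' =>
    obtain ⟨ι, _, sp, ψ, hψ, ⟨C, hC⟩, h⟩ := hg
    obtain ⟨ι', _, sp', ψ', hψ', ⟨C', hC'⟩, h'⟩ := hg'
    refine ⟨ι ⊕ ι', inferInstance, Sum.elim sp sp',
      fun x => ψ (fun i => x (.inl i)) * ψ' fun i => x (.inr i),
      (hψ.comp (by fun_prop)).mul (hψ'.comp (by fun_prop)), ⟨C * C', fun x => ?_⟩, fun u => ?_⟩
    · rw [abs_mul]
      exact mul_le_mul (hC _) (hC' _) (abs_nonneg _) ((abs_nonneg _).trans (hC fun i => x (.inl i)))
    · show g u * g' u = _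
      rw [h, h']
      rfl

/-- The Ghirlanda–Guerra identities for all pair overlaps at once, tested on a nonnegative
observable. -/
theorem gg_pairs_nonneg {n : ℕ} {f : Cube → ℝ} (hf : Obs n f) (hf0 : ∀ ω, 0 ≤ f ω) {l : ℕ}
    (hl : l < n) {Ψ : CubeOn PIdx → ℝ} (hΨ : Measurable Ψ) {C : ℝ} (hC : ∀ u, |Ψ u| ≤ C) :
    (n : ℝ) * ∫ ω, f ω * Ψ (pairs l n ω) ∂L.P =
      (∫ ω, f ω ∂L.P) * (∫ ω, Ψ (pairs 0 1 ω) ∂L.P) +
        ∑ l' ∈ (Finset.range n).erase l, ∫ ω, f ω * Ψ (pairs l l' ω) ∂L.P := by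
  classical
  obtain ⟨g0, hg0, hfg⟩ := hf.fac
  have hfm : Measurable f := hfg ▸ hg0.comp (measurable_pi_lambda _ fun _ => measurable_pi_apply _)
  obtain ⟨D, hD⟩ := hf.bdd
  set ρ : Measure Cube := L.P.withDensity fun ω => ((f ω).toNNReal : ℝ≥0∞)
  have : IsFiniteMeasure ρ := isFiniteMeasure_withDensity (ne_top_of_le_ne_top
    (b := ENNReal.ofReal D) ENNReal.ofReal_ne_top ((lintegral_mono (g := fun _ => ENNReal.ofReal D)
      fun ω => ENNReal.ofReal_le_ofReal ((le_abs_self _).trans (hD ω))).trans_eq (by simp)))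
  have hρ : ∀ (g : CubeOn PIdx → ℝ), Measurable g → ∀ a b,
      ∫ u, g u ∂ρ.map (pairs a b) = ∫ ω, f ω * g (pairs a b ω) ∂L.P := by
    intro g hg a b
    rw [integral_map (measurable_pairs a b).aemeasurable hg.aestronglyMeasurable,
      integral_withDensity_eq_integral_smul hfm.real_toNNReal]
    refine integral_congr_ae (ae_of_all _ fun ω => ?_)
    show ((f ω).toNNReal : ℝ) * _ = _
    rw [Real.coe_toNNReal _ (hf0 ω)]
  set μ := (n : ℝ≥0) • ρ.map (pairs l n)
  set μ' := (∫ ω, f ω ∂L.P).toNNReal • L.P.map (pairs 0 1) +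
    ∑ l' ∈ (Finset.range n).erase l, ρ.map (pairs l l')
  have hμ : ∀ g : CubeOn PIdx → ℝ, Measurable g → ∀ C', (∀ u, |g u| ≤ C') →
      ∫ u, g u ∂μ = (n : ℝ) * ∫ ω, f ω * g (pairs l n ω) ∂L.P ∧
      ∫ u, g u ∂μ' = (∫ ω, f ω ∂L.P) * (∫ ω, g (pairs 0 1 ω) ∂L.P) +
        ∑ l' ∈ (Finset.range n).erase l, ∫ ω, f ω * g (pairs l l' ω) ∂L.P := by
    intro g hg C' hC'
    have hi : ∀ m : Measure (CubeOn PIdx), IsFiniteMeasure m → Integrable g m := fun m _ =>
      Integrable.of_bound hg.aestronglyMeasurable C' (ae_of_all _ hC')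
    constructor
    · rw [integral_smul_nnreal_measure, hρ g hg, NNReal.smul_def, smul_eq_mul, NNReal.coe_natCast]
    · rw [integral_add_measure (hi _ inferInstance) (hi _ inferInstance),
        integral_smul_nnreal_measure, integral_finsetSum_measure fun l' _ => hi _ inferInstance,
        integral_map (measurable_pairs 0 1).aemeasurable hg.aestronglyMeasurable, NNReal.smul_def,
        smul_eq_mul, Real.coe_toNNReal _ (integral_nonneg hf0)]
      congr 1
      exact Finset.sum_congr rfl fun l' _ => hρ g hg l l'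
  have heq : μ = μ' := by
    refine ext_of_moments fun g hg => ?_
    obtain ⟨hl1, hl2⟩ := hμ g g.continuous.measurable ‖g‖ fun u => g.norm_coe_le_norm u
    rw [hl1, hl2]
    obtain ⟨ι, _, sp, ψ, hψ, ⟨C', hC'⟩, he⟩ := cyl_closure hg
    simp only [he]
    exact L.gg_vec sp hf hψ hC' hl
  rw [← (hμ Ψ hΨ C hC).1, ← (hμ Ψ hΨ C hC).2, heq]

/-- The Ghirlanda–Guerra identities for all pair overlaps at once. -/
theorem gg_pairs {n : ℕ} {f : Cube → ℝ} (hf : Obs n f) {l : ℕ} (hl : l < n)
    {Ψ : CubeOn PIdx → ℝ} (hΨ : Measurable Ψ) {C : ℝ} (hC : ∀ u, |Ψ u| ≤ C) :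
    (n : ℝ) * ∫ ω, f ω * Ψ (pairs l n ω) ∂L.P =
      (∫ ω, f ω ∂L.P) * (∫ ω, Ψ (pairs 0 1 ω) ∂L.P) +
        ∑ l' ∈ (Finset.range n).erase l, ∫ ω, f ω * Ψ (pairs l l' ω) ∂L.P := by
  obtain ⟨g0, hg0, hfg⟩ := hf.fac
  obtain ⟨D, hD⟩ := hf.bdd
  have hfm : Measurable f := hfg ▸ hg0.comp (measurable_pi_lambda _ fun _ => measurable_pi_apply _)
  rcases isEmpty_or_nonempty Cube with hC0 | ⟨⟨ω0⟩⟩
  · simp [integral_of_isEmpty]
  have hD0 : 0 ≤ D := (abs_nonneg _).trans (hD ω0)
  have hf1 : Obs n fun ω => f ω + D :=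
    ⟨⟨fun r => g0 r + D, hg0.add_const D, by rw [hfg]; rfl⟩, 2 * D,
      fun ω => (abs_add_le _ _).trans (by rw [abs_of_nonneg hD0]; linarith [hD ω])⟩
  have hf2 : Obs n fun _ : Cube => D := ⟨⟨fun _ => D, measurable_const, rfl⟩, |D|, fun _ => le_rfl⟩
  have h1 := gg_pairs_nonneg L hf1 (fun ω => by linarith [(abs_le.1 (hD ω)).1]) hl hΨ hC
  have h2 := gg_pairs_nonneg L hf2 (fun _ => hD0) hl hΨ hC
  have hi : ∀ a b, Integrable (fun ω => f ω * Ψ (pairs a b ω)) L.P ∧
      Integrable (fun ω => D * Ψ (pairs a b ω)) L.P := fun a b => by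
    have hm := hΨ.comp (measurable_pairs a b)
    refine ⟨Integrable.of_bound (hfm.mul hm).aestronglyMeasurable (D * C) (ae_of_all _ fun ω => ?_),
      (Integrable.of_bound hm.aestronglyMeasurable C (ae_of_all _ fun ω => hC _)).const_mul D⟩
    rw [Real.norm_eq_abs, abs_mul]
    exact mul_le_mul (hD ω) (hC _) (abs_nonneg _) hD0
  have hfi : Integrable f L.P := Integrable.of_bound hfm.aestronglyMeasurable D (ae_of_all _ hD)
  have e : ∀ a b, ∫ ω, (f ω + D) * Ψ (pairs a b ω) ∂L.P =
      ∫ ω, f ω * Ψ (pairs a b ω) ∂L.P + ∫ ω, D * Ψ (pairs a b ω) ∂L.P := fun a b => by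
    rw [← integral_add (hi a b).1 (hi a b).2]
    exact integral_congr_ae (ae_of_all _ fun ω => add_mul _ _ _)
  simp only [e, Finset.sum_add_distrib, mul_add] at h1
  rw [integral_add hfi (integrable_const D), add_mul] at h1
  linarith

/-- A family of patterns gives a positive semidefinite matrix. -/
theorem psd_patterns {j : Spc} {ι : Type*} [Fintype ι] (φ : ι → Pat j.1) (x : ι → ℝ) :
    ∀ᵐ ω ∂L.P, 0 ≤ ∑ o, ∑ o', x o * x o' * R j (φ o ∆ φ o') ω := by
  classical
  filter_upwards [L.psd j (Finset.univ.image φ)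
    fun p => ∑ o ∈ Finset.univ.filter (fun o => φ o = p), x o] with ω hω
  refine hω.trans (le_of_eq ?_)
  rw [← Finset.sum_fiberwise_of_maps_to (fun o _ => Finset.mem_image_of_mem φ (Finset.mem_univ o))
    (fun o => ∑ o', x o * x o' * R j (φ o ∆ φ o') ω)]
  refine Finset.sum_congr rfl fun p _ => ?_
  have : ∀ o ∈ Finset.univ.filter (fun o => φ o = p), ∑ o', x o * x o' * R j (φ o ∆ φ o') ω =
      ∑ q ∈ Finset.univ.image φ, x o * (∑ o' ∈ Finset.univ.filter (fun o' => φ o' = q), x o') *
        R j (p ∆ q) ω := by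
    intro o ho
    rw [← Finset.sum_fiberwise_of_maps_to
      (fun o _ => Finset.mem_image_of_mem φ (Finset.mem_univ o))
      (fun o' => x o * x o' * R j (φ o ∆ φ o') ω)]
    refine Finset.sum_congr rfl fun q _ => ?_
    rw [Finset.mul_sum, Finset.sum_mul]
    refine Finset.sum_congr rfl fun o' ho' => ?_
    rw [(Finset.mem_filter.1 ho).2, (Finset.mem_filter.1 ho').2]
  rw [Finset.sum_congr rfl this, Finset.sum_comm]
  exact Finset.sum_congr rfl fun q _ => by rw [← Finset.sum_mul, ← Finset.sum_mul]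

theorem matS_relabel {k n : ℕ} (e : Fin k → Fin n) (he : Function.Injective e) :
    ∃ e' : ℕ → ℕ, Function.Injective e' ∧ ∀ (ω : Cube) a b,
      matS (comb v) k (relabel e' ω) a b = matS (comb v) n ω (e a) (e b) := by
  refine ⟨fun a => if h : a < k then (e ⟨a, h⟩ : ℕ) else n + a, ?_, ?_⟩
  · intro a b hab
    by_cases ha : a < k <;> by_cases hb : b < k <;>
      simp only [ha, hb, dite_true, dite_false] at hab
    · exact congrArg Fin.val (he (Fin.ext hab))
    · have := (e ⟨a, ha⟩).2; omega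
    · have := (e ⟨b, hb⟩).2; omega
    · omega
  · intro ω a b
    have hinj : Function.Injective fun a => if h : a < k then (e ⟨a, h⟩ : ℕ) else n + a := by
      intro a b hab
      by_cases ha : a < k <;> by_cases hb : b < k <;>
        simp only [ha, hb, dite_true, dite_false] at hab
      · exact congrArg Fin.val (he (Fin.ext hab))
      · have := (e ⟨a, ha⟩).2; omega
      · have := (e ⟨b, hb⟩).2; omega
      · omega
    simp only [matS, he.eq_iff, comb_equiv hinj, a.2, b.2, dite_true, Fin.eta]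

theorem measurable_matS_comb (hv0 : ∀ i, 0 ≤ v i) (hv : HasSum v 1) (n : ℕ) :
    Measurable (matS (comb v) n) := by
  refine measurable_pi_lambda _ fun a => measurable_pi_lambda _ fun b => ?_
  by_cases hab : a = b
  · simp only [matS, if_pos hab]; exact measurable_const
  · simp only [matS, if_neg hab]
    exact (measurable_cmb hv0 hv).comp (measurable_pairs _ _)

/-- **A convex combination of pair overlaps is an array of overlaps.** -/
theorem arr_of_weights (hv0 : ∀ i, 0 ≤ v i) (hv : HasSum v 1) :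
    ∃ A : Vale.Agent.P157.Low.Arr, ∀ n, A.law n = L.P.map (matS (comb v) n) := by
  have hm := measurable_matS_comb hv0 hv
  refine ⟨{
    law := fun n => L.P.map (matS (comb v) n)
    prob := fun n => Measure.isProbabilityMeasure_map (hm n).aemeasurable
    marg := ?_
    symm := ?_
    diag := ?_
    bdd := ?_
    pos := ?_
    gg := ?_ }, fun n => rfl⟩
  · intro k n e he
    obtain ⟨e', he', h⟩ := matS_relabel (v := v) e he
    have hr : Measurable (relabel e') := measurable_pi_lambda _ fun _ => measurable_pi_apply _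
    have : (fun R : Fin n → Fin n → ℝ => Vale.Agent.P157.Low.sub R e) ∘ matS (comb v) n =
        matS (comb v) k ∘ relabel e' := funext fun ω => funext fun a => funext fun b => (h ω a b).symm
    rw [Measure.map_map (Vale.Agent.P157.Low.measurable_subMat e) (hm n), this,
      ← Measure.map_map (hm k) hr, L.inv e' he']
  · intro n
    refine ae_all_iff.2 fun a => ae_all_iff.2 fun b => ?_
    rw [ae_map_iff (hm n).aemeasurable
      (measurableSet_eq_fun (by fun_prop) (by fun_prop))]
    refine ae_of_all _ fun ω => ?_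
    simp only [matS, comb_eq_cmb, pairs_comm (a : ℕ) b, eq_comm (a := a)]
  · intro n
    refine ae_all_iff.2 fun a => ?_
    rw [ae_map_iff (hm n).aemeasurable (measurableSet_eq_fun (by fun_prop) measurable_const)]
    exact ae_of_all _ fun ω => if_pos rfl
  · intro n
    refine ae_all_iff.2 fun a => ae_all_iff.2 fun b => ?_
    rw [ae_map_iff (hm n).aemeasurable (measurableSet_le (by fun_prop) measurable_const)]
    refine ae_of_all _ fun ω => ?_
    by_cases hab : a = b
    · simp [matS, hab]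
    · simp only [matS, if_neg hab, comb]
      exact abs_le.2 ⟨le_max_left _ _, max_le (by norm_num) (min_le_left _ _)⟩
  · intro n c
    rw [ae_map_iff (hm n).aemeasurable (measurableSet_le measurable_const (by fun_prop))]
    filter_upwards [ae_all_iff.2 fun i : PIdx => psd_patterns L (fun a : Fin n => single (a : ℕ) i.2) c,
      ae_all_iff.2 fun i : PIdx => L.one i.1] with ω hp h1
    have he : ∀ a b : Fin n, matS (comb v) n ω a b = ∑' i, v i * R i.1 (pair a b i.2) ω := by
      intro a b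
      by_cases hab : a = b
      · subst hab
        simp only [matS, if_pos, pair, symmDiff_self, Finset.bot_eq_empty, h1, mul_one, hv.tsum_eq]
      · simp only [matS, if_neg hab, comb_eq_cmb, cmb_eq hv0 hv]
        rfl
    have hs : ∀ a b : Fin n, Summable fun i => v i * R i.1 (pair a b i.2) ω := fun a b =>
      summable_cmb hv0 hv (pairs a b ω)
    simp only [he, ← tsum_mul_left]
    rw [Finset.sum_congr rfl fun a _ => (Summable.tsum_finsetSum fun b _ => (hs a b).mul_left _).symm,
      ← Summable.tsum_finsetSum fun a _ => summable_sum fun b _ => (hs a b).mul_left _]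
    refine tsum_nonneg fun i => ?_
    have : ∀ a b : Fin n, c a * c b * (v i * R i.1 (pair a b i.2) ω) =
        v i * (c a * c b * R i.1 (pair a b i.2) ω) := fun a b => by ring
    simp only [this, ← Finset.mul_sum]
    exact mul_nonneg (hv0 i) (hp i)
  · intro n l Φ ψ hΦ hψ ⟨CΦ, hCΦ⟩ ⟨Cψ, hCψ⟩
    have hf : Obs n fun ω => Φ (matS (comb v) n ω) := by
      choose g hg hge using fun a b : Fin n => (obs_comb hv0 hv a.2 b.2).fac
      refine ⟨⟨fun r => Φ fun a b => if a = b then 1 else g a b r, hΦ.comp (measurable_pi_lambda _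
        fun a => measurable_pi_lambda _ fun b => ?_), funext fun ω => ?_⟩, CΦ, fun ω => hCΦ _⟩
      · by_cases hab : a = b
        · simp only [if_pos hab]; exact measurable_const
        · simp only [if_neg hab]; exact hg a b
      · show Φ _ = Φ _
        congr 1
        funext a b
        simp only [matS, hge]
        rfl
    have hψ' : Measurable fun u => ψ (cmb v u) := hψ.comp (measurable_cmb hv0 hv)
    have h := gg_pairs L hf l.2 hψ' fun u => hCψ _
    have hl0 : (l : ℕ) ≠ n := l.2.ne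
    have e1 : ∫ R, Φ (Vale.Agent.P157.Low.sub R Fin.castSucc) * ψ (R l.castSucc (Fin.last n))
        ∂L.P.map (matS (comb v) (n + 1)) =
          ∫ ω, Φ (matS (comb v) n ω) * ψ (cmb v (pairs l n ω)) ∂L.P := by
      have hme : Measurable fun R : Fin (n + 1) → Fin (n + 1) → ℝ =>
          Φ (Vale.Agent.P157.Low.sub R Fin.castSucc) * ψ (R l.castSucc (Fin.last n)) :=
        (hΦ.comp (Vale.Agent.P157.Low.measurable_subMat _)).mul (hψ.comp (by fun_prop))
      rw [integral_map (hm (n + 1)).aemeasurable hme.aestronglyMeasurable]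
      refine integral_congr_ae (ae_of_all _ fun ω => ?_)
      have : Vale.Agent.P157.Low.sub (matS (comb v) (n + 1) ω) Fin.castSucc = matS (comb v) n ω := by
        funext a b
        simp [Vale.Agent.P157.Low.sub, matS]
      simp only [this, matS, (Fin.castSucc_lt_last l).ne, if_false, Fin.val_castSucc, Fin.val_last,
        comb_eq_cmb]
    have e2 : ∫ R, ψ (R 0 1) ∂L.P.map (matS (comb v) 2) = ∫ ω, ψ (cmb v (pairs 0 1 ω)) ∂L.P := by
      have hme : Measurable fun R : Fin 2 → Fin 2 → ℝ => ψ (R 0 1) := hψ.comp (by fun_prop)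
      rw [integral_map (hm 2).aemeasurable hme.aestronglyMeasurable]
      rfl
    have e3 : ∀ l' ∈ Finset.univ.erase l, ∫ R, Φ R * ψ (R l l') ∂L.P.map (matS (comb v) n) =
        ∫ ω, Φ (matS (comb v) n ω) * ψ (cmb v (pairs l (l' : ℕ) ω)) ∂L.P := fun l' hl' => by
      have hme : Measurable fun R : Fin n → Fin n → ℝ => Φ R * ψ (R l l') :=
        hΦ.mul (hψ.comp (by fun_prop))
      rw [integral_map (hm n).aemeasurable hme.aestronglyMeasurable]
      simp only [matS, if_neg (Finset.ne_of_mem_erase hl').symm, comb_eq_cmb]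
    rw [e1, integral_map (hm n).aemeasurable hΦ.aestronglyMeasurable, e2, Finset.sum_congr rfl e3, h]
    congr 1
    symm
    refine Finset.sum_bij (fun l' _ => (l' : ℕ)) ?_ ?_ ?_ ?_
    · intro a ha
      simp only [Finset.mem_erase, Finset.mem_range]
      exact ⟨fun h => (Finset.ne_of_mem_erase ha) (Fin.ext h), a.2⟩
    · exact fun a _ b _ h => Fin.ext h
    · intro b hb
      simp only [Finset.mem_erase, Finset.mem_range] at hb
      exact ⟨⟨b, hb.2⟩, by simpa [Fin.ext_iff] using hb.1, rfl⟩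
    · intro a _; rfl

end

end Vale.Agent.P168
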