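import Vale.Agent.P168.Sync.Comb

/-!
P168: pair overlaps do not cross, hence they are Lipschitz functions of one combination (helper27).
-/

namespace Vale.Agent.P168

open MeasureTheory Set Induct
open scoped symmDiff NNReal ENNReal

noncomputable section

variable (L : Lim)

/-- The law of the pair overlaps of two replicas. -/
def pairLaw : Measure (CubeOn PIdx) := L.P.map (pairs 0 1)

instance : IsProbabilityMeasure (pairLaw L) :=
  Measure.isProbabilityMeasure_map (measurable_pairs 0 1).aemeasurable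

theorem map_pairs {a b : ℕ} (hab : a ≠ b) : L.P.map (pairs a b) = pairLaw L := by
  set e : ℕ → ℕ := fun m => if m = 0 then a else if m = 1 then b else a + b + m
  have he : Function.Injective e := by
    intro x y h
    simp only [e] at h
    split_ifs at h <;> omega
  have hr : Measurable (relabel e) := measurable_pi_lambda _ fun _ => measurable_pi_apply _
  have hc : pairs 0 1 ∘ relabel e = pairs a b := by
    funext ω
    rw [Function.comp_apply, pairs_relabel he]
    simp [e]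
  rw [← hc, ← Measure.map_map (measurable_pairs 0 1) hr, L.inv e he]
  rfl

theorem tree_ultra {v : PIdx → ℝ} (hv0 : ∀ i, 0 ≤ v i) (hv : HasSum v 1) (a b c : ℕ) (hab : a ≠ b)
    (hbc : b ≠ c) (hac : a ≠ c) :
    ∀ᵐ ω ∂L.P, min (comb v a b ω) (comb v b c ω) ≤ comb v a c ω := by
  obtain ⟨A, hA⟩ := arr_of_weights L hv0 hv
  set n := a + b + c + 1
  have h := A.ultra n
  rw [hA n] at h
  filter_upwards [ae_of_ae_map (measurable_matS_comb hv0 hv n).aemeasurable h] with ω hω
  have h' := hω ⟨a, by omega⟩ ⟨b, by omega⟩ ⟨c, by omega⟩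
  simpa [matS, Fin.ext_iff, hab, hbc, hac] using h'

theorem tree_nonneg {v : PIdx → ℝ} (hv0 : ∀ i, 0 ≤ v i) (hv : HasSum v 1) {a b : ℕ} (hab : a ≠ b) :
    ∀ᵐ ω ∂L.P, 0 ≤ comb v a b ω := by
  obtain ⟨A, hA⟩ := arr_of_weights L hv0 hv
  set n := a + b + 1
  have h := A.nonneg n
  rw [hA n] at h
  filter_upwards [ae_of_ae_map (measurable_matS_comb hv0 hv n).aemeasurable h] with ω hω
  simpa [matS, Fin.ext_iff, hab] using hω ⟨a, by omega⟩ ⟨b, by omega⟩

open Classical in
/-- The weight of one coordinate. -/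
def one1 (i : PIdx) : PIdx → ℝ := fun i' => if i' = i then 1 else 0

theorem one1_nonneg (i i' : PIdx) : 0 ≤ one1 i i' := by
  simp only [one1]; split_ifs <;> norm_num

theorem hasSum_one1 (i : PIdx) : HasSum (one1 i) 1 := by
  unfold one1
  exact hasSum_ite_eq i 1

theorem cmb_one1 (i : PIdx) (u : CubeOn PIdx) : cmb (one1 i) u = u i := by
  rw [cmb_eq (one1_nonneg i) (hasSum_one1 i)]
  simp [one1, tsum_ite_eq]

theorem cmb_half (i i' : PIdx) (u : CubeOn PIdx) :
    cmb (fun q => (one1 i q + one1 i' q) / 2) u = ((u i : ℝ) + u i') / 2 := by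
  have hs : ∀ i : PIdx, HasSum (fun q => one1 i q * (u q : ℝ)) (u i : ℝ) := fun i => by
    have := (summable_cmb (one1_nonneg i) (hasSum_one1 i) u).hasSum
    rwa [← cmb_eq (one1_nonneg i) (hasSum_one1 i), cmb_one1] at this
  rw [cmb_eq (fun q => by have := one1_nonneg i q; have := one1_nonneg i' q; positivity)
    (by simpa using ((hasSum_one1 i).add (hasSum_one1 i')).div_const 2)]
  refine HasSum.tsum_eq ?_
  exact (((hs i).add (hs i')).div_const 2).congr_fun fun q => by ring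

/-- Two components do not cross. -/
theorem no_cross (i i' : PIdx) : ∀ᵐ ω ∂L.P,
    ¬ ((pairs 0 1 ω i : ℝ) < pairs 0 2 ω i ∧ (pairs 0 2 ω i' : ℝ) < pairs 0 1 ω i') := by
  have hh0 : ∀ q, 0 ≤ (one1 i q + one1 i' q) / 2 := fun q => by
    have := one1_nonneg i q; have := one1_nonneg i' q; positivity
  have hh : HasSum (fun q => (one1 i q + one1 i' q) / 2) 1 := by
    simpa using ((hasSum_one1 i).add (hasSum_one1 i')).div_const 2
  filter_upwards [tree_ultra L (one1_nonneg i) (hasSum_one1 i) 0 2 1 (by omega) (by omega) (by omega),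
    tree_ultra L (one1_nonneg i') (hasSum_one1 i') 0 1 2 (by omega) (by omega) (by omega),
    tree_ultra L hh0 hh 1 0 2 (by omega) (by omega) (by omega)] with ω h1 h2 h3
  rintro ⟨hx, hy⟩
  simp only [comb_eq_cmb, cmb_one1, pairs_comm 2 1] at h1 h2
  simp only [comb_eq_cmb, cmb_half, pairs_comm 1 0] at h3
  rcases min_le_iff.1 h1 with h | h
  · linarith
  rcases min_le_iff.1 h2 with h' | h'
  · linarith
  rcases min_le_iff.1 h3 with h'' | h'' <;> linarith

/-- Independent samples of the pair overlaps do not cross. -/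
theorem no_cross_prod (i i' : PIdx) : ∀ᵐ p ∂(pairLaw L).prod (pairLaw L),
    ¬ ((p.1 i : ℝ) < p.2 i ∧ (p.2 i' : ℝ) < p.1 i') := by
  have key : ∀ q q' : ℚ, ∀ᵐ p ∂(pairLaw L).prod (pairLaw L),
      ¬ (((p.1 i : ℝ) < q ∧ (q' : ℝ) < p.1 i') ∧ ((q : ℝ) < p.2 i ∧ (p.2 i' : ℝ) < q')) := by
    intro q q'
    set S : Set (CubeOn PIdx) := {u | (u i : ℝ) < q ∧ (q' : ℝ) < u i'}
    set T : Set (CubeOn PIdx) := {u | (q : ℝ) < u i ∧ (u i' : ℝ) < q'}
    have hm : ∀ x : PIdx, Measurable fun u : CubeOn PIdx => (u x : ℝ) := fun x => by fun_prop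
    have hS : MeasurableSet S := (measurableSet_lt (hm i) measurable_const).inter
      (measurableSet_lt measurable_const (hm i'))
    have hT : MeasurableSet T := (measurableSet_lt measurable_const (hm i)).inter
      (measurableSet_lt (hm i') measurable_const)
    have hSb : ∀ u, |S.indicator (fun _ => (1 : ℝ)) u| ≤ 1 := fun u => by
      by_cases h : u ∈ S <;> simp [h]
    have hTb : ∀ u, |T.indicator (fun _ => (1 : ℝ)) u| ≤ 1 := fun u => by
      by_cases h : u ∈ T <;> simp [h]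
    have hf : Obs 2 fun ω => S.indicator (fun _ => (1 : ℝ)) (pairs 0 1 ω) := by
      have hP : ∀ x : PIdx, Below 2 (pair 0 1 x.2) := fun x p hp => by
        simp only [pair, single, Finset.mem_symmDiff, Finset.mem_product, Finset.mem_singleton] at hp
        rcases hp with ⟨⟨h, -⟩, -⟩ | ⟨⟨h, -⟩, -⟩ <;> omega
      exact ⟨⟨fun r => S.indicator (fun _ => (1 : ℝ)) fun x => r ⟨⟨x.1, pair 0 1 x.2⟩, hP x⟩,
        (measurable_const.indicator hS).comp (measurable_pi_lambda _ fun x =>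
          measurable_pi_apply (⟨⟨x.1, pair 0 1 x.2⟩, hP x⟩ : {q : Idx // Below 2 q.2})), rfl⟩,
        1, fun ω => hSb _⟩
    have h := gg_pairs L hf (l := 0) two_pos (Ψ := T.indicator fun _ => (1 : ℝ))
      (measurable_const.indicator hT) hTb
    have hL : ∫ ω, S.indicator (fun _ => (1 : ℝ)) (pairs 0 1 ω) *
        T.indicator (fun _ => (1 : ℝ)) (pairs 0 2 ω) ∂L.P = 0 := by
      refine integral_eq_zero_of_ae ?_
      filter_upwards [no_cross L i i'] with ω hω
      by_cases hs : pairs 0 1 ω ∈ S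
      · by_cases ht : pairs 0 2 ω ∈ T
        · exact absurd ⟨hs.1.trans ht.1, ht.2.trans hs.2⟩ hω
        · simp [ht]
      · simp [hs]
    have hR : ∀ l' ∈ (Finset.range 2).erase 0, ∫ ω, S.indicator (fun _ => (1 : ℝ)) (pairs 0 1 ω) *
        T.indicator (fun _ => (1 : ℝ)) (pairs 0 l' ω) ∂L.P = 0 := by
      intro l' hl'
      have : l' = 1 := by simp at hl'; omega
      subst this
      refine integral_eq_zero_of_ae (ae_of_all _ fun ω => ?_)
      by_cases hs : pairs 0 1 ω ∈ S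
      · have : pairs 0 1 ω ∉ T := fun ht => (lt_irrefl _ (hs.1.trans ht.1))
        simp [this]
      · simp [hs]
    rw [hL, mul_zero, Finset.sum_eq_zero hR, add_zero] at h
    have e : ∀ {U : Set (CubeOn PIdx)}, MeasurableSet U →
        ∫ ω, U.indicator (fun _ => (1 : ℝ)) (pairs 0 1 ω) ∂L.P = (pairLaw L).real U := fun hU => by
      rw [pairLaw, map_measureReal_apply (measurable_pairs 0 1) hU,
        ← integral_indicator_one ((measurable_pairs 0 1) hU)]
      rfl
    rw [e hS, e hT] at h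
    have h0 : (pairLaw L).prod (pairLaw L) (S ×ˢ T) = 0 := by
      rw [Measure.prod_prod]
      rcases mul_eq_zero.1 h.symm with h | h
      · rw [(measureReal_eq_zero_iff).1 h, zero_mul]
      · rw [(measureReal_eq_zero_iff).1 h, mul_zero]
    filter_upwards [measure_eq_zero_iff_ae_notMem.1 h0] with p hp h
    exact hp h
  filter_upwards [ae_all_iff.2 fun q => ae_all_iff.2 fun q' => key q q'] with p hp
  rintro ⟨hx, hy⟩
  obtain ⟨q, hq1, hq2⟩ := exists_rat_btwn hx
  obtain ⟨q', hq1', hq2'⟩ := exists_rat_btwn hy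
  exact hp q q' ⟨⟨hq1, hq2'⟩, hq2, hq1'⟩

variable {w : PIdx → ℝ}

theorem abs_sub_le_cmb (hw : Weights w) (i : PIdx) {u u' : CubeOn PIdx}
    (h : ∀ i i' : PIdx, ¬ ((u i : ℝ) < u' i ∧ (u' i' : ℝ) < u i'))
    (h' : ∀ i i' : PIdx, ¬ ((u' i : ℝ) < u i ∧ (u i' : ℝ) < u' i')) :
    |(u i : ℝ) - u' i| ≤ (w i)⁻¹ * |cmb w u - cmb w u'| := by
  have key : ∀ x y : CubeOn PIdx, (∀ i i' : PIdx, ¬ ((x i : ℝ) < y i ∧ (y i' : ℝ) < x i')) →
      (x i : ℝ) < y i → (y i : ℝ) - x i ≤ (w i)⁻¹ * |cmb w x - cmb w y| := by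
    intro x y hxy hi
    have hle : ∀ q, (x q : ℝ) ≤ y q := fun q => not_lt.1 fun hq => hxy i q ⟨hi, hq⟩
    have hx := (summable_cmb (fun q => (hw.pos q).le) hw.sum x)
    have hy := (summable_cmb (fun q => (hw.pos q).le) hw.sum y)
    have h1 := (hy.sub hx).le_tsum i fun q _ => sub_nonneg.2 (mul_le_mul_of_nonneg_left (hle q) (hw.pos q).le)
    rw [hy.tsum_sub hx, ← cmb_eq (fun q => (hw.pos q).le) hw.sum,
      ← cmb_eq (fun q => (hw.pos q).le) hw.sum, ← mul_sub] at h1
    have h2 : w i * ((y i : ℝ) - x i) ≤ |cmb w x - cmb w y| := by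
      rw [abs_sub_comm]
      exact h1.trans (le_abs_self _)
    rw [le_inv_mul_iff₀ (hw.pos i)]
    exact h2
  rcases lt_trichotomy (u i : ℝ) (u' i) with hlt | heq | hgt
  · rw [abs_sub_comm, abs_of_pos (sub_pos.2 hlt)]
    exact key u u' h hlt
  · rw [heq, sub_self, abs_zero]
    exact mul_nonneg (inv_nonneg.2 (hw.pos i).le) (abs_nonneg _)
  · rw [abs_of_pos (sub_pos.2 hgt), abs_sub_comm (cmb w u)]
    exact key u' u h' hgt

/-- Every component is a Lipschitz function of the combination. -/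
theorem exists_lipschitz (hw : Weights w) (i : PIdx) : ∃ F : ℝ → ℝ,
    (∀ s t, |F s - F t| ≤ (w i)⁻¹ * |s - t|) ∧
      ∀ᵐ u ∂pairLaw L, (u i : ℝ) = F (cmb w u) := by
  set ν := pairLaw L
  set φ : CubeOn PIdx → ℝ × ℝ := fun u => (cmb w u, (u i : ℝ))
  have hφ : Measurable φ := (measurable_cmb (fun q => (hw.pos q).le) hw.sum).prodMk (by fun_prop)
  set m := ν.map φ
  set W := (w i)⁻¹
  have hW : 0 ≤ W := inv_nonneg.2 (hw.pos i).le
  have hbad : ∀ᵐ p ∂ν.prod ν, |(φ p.1).2 - (φ p.2).2| ≤ W * |(φ p.1).1 - (φ p.2).1| := by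
    have hsw := (Measure.measurePreserving_swap (μ := ν) (ν := ν)).quasiMeasurePreserving.ae
      (ae_all_iff.2 fun a => ae_all_iff.2 fun b => no_cross_prod L a b)
    filter_upwards [ae_all_iff.2 fun a => ae_all_iff.2 fun b => no_cross_prod L a b, hsw] with p h h'
    exact abs_sub_le_cmb hw i h h'
  have hsupp : ∀ x ∈ m.support, ∀ y ∈ m.support, |x.2 - y.2| ≤ W * |x.1 - y.1| := by
    intro x hx y hy
    by_contra hlt
    have ho : IsOpen {q : (ℝ × ℝ) × ℝ × ℝ | W * |q.1.1 - q.2.1| < |q.1.2 - q.2.2|} :=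
      isOpen_lt (by fun_prop) (by fun_prop)
    obtain ⟨U, V, hU, hV, hxU, hyV, hUV⟩ := isOpen_prod_iff.1 ho x y (not_le.1 hlt)
    have hUpos := ((Measure.mem_support_iff_forall _).1 hx) U (hU.mem_nhds hxU)
    have hVpos := ((Measure.mem_support_iff_forall _).1 hy) V (hV.mem_nhds hyV)
    rw [Measure.map_apply hφ hU.measurableSet] at hUpos
    rw [Measure.map_apply hφ hV.measurableSet] at hVpos
    have h0 : ν.prod ν ((φ ⁻¹' U) ×ˢ (φ ⁻¹' V)) = 0 := by
      refine measure_eq_zero_iff_ae_notMem.2 ?_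
      filter_upwards [hbad] with p hp hmem
      have hh := hUV (show (φ p.1, φ p.2) ∈ U ×ˢ V from hmem)
      exact absurd hp (not_le.2 hh)
    rw [Measure.prod_prod] at h0
    exact (ENNReal.mul_pos hUpos.ne' hVpos.ne').ne' h0
  classical
  set f : ℝ → ℝ := fun s => if h : ∃ y, (s, y) ∈ m.support then h.choose else 0
  have hf : ∀ x ∈ m.support, f x.1 = x.2 := by
    intro x hx
    have h : ∃ y, (x.1, y) ∈ m.support := ⟨x.2, hx⟩
    have := hsupp _ h.choose_spec _ hx
    simp only [sub_self, abs_zero, mul_zero] at this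
    simp only [f, dif_pos h]
    exact sub_eq_zero.1 (abs_nonpos_iff.1 this)
  have hlip : LipschitzOnWith W.toNNReal f (Prod.fst '' m.support) := by
    refine LipschitzOnWith.of_dist_le_mul ?_
    rintro _ ⟨x, hx, rfl⟩ _ ⟨y, hy, rfl⟩
    rw [hf x hx, hf y hy, Real.dist_eq, Real.dist_eq, Real.coe_toNNReal W hW]
    exact hsupp x hx y hy
  obtain ⟨F, hF, hFf⟩ := hlip.extend_real
  refine ⟨F, fun s t => ?_, ?_⟩
  · have := hF.dist_le_mul s t
    rwa [Real.dist_eq, Real.dist_eq, Real.coe_toNNReal W hW] at this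
  · have hae : ∀ᵐ x ∂m, x ∈ m.support := Measure.support_mem_ae
    filter_upwards [ae_of_ae_map hφ.aemeasurable hae] with u hu
    exact ((hFf ⟨φ u, hu, rfl⟩).symm.trans (hf _ hu)).symm

end

end Vale.Agent.P168
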