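import Vale.Agent.P168.Sync.Basic
import Mathlib.MeasureTheory.Function.ContinuousMapDense
import Mathlib.Topology.ContinuousMap.StoneWeierstrass

/-!
P168: the identities of a limit extend to all observables and to all functions of pair overlaps.
-/

namespace Vale.Agent.P168

open MeasureTheory Finset Filter
open scoped Topology symmDiff

namespace Ext

/-- The overlaps of the replicas below `n`. -/
abbrev CubeN (n : ℕ) := {i : Idx // Below n i.2} → ↥(Set.Icc (-1 : ℝ) 1)

lemma continuous_restr (n : ℕ) : Continuous (restr n) := by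
  unfold restr; fun_prop

lemma continuous_ov (j : Spc) (A : Pat j.1) : Continuous (R j A) :=
  continuous_subtype_val.comp (continuous_apply (⟨j, A⟩ : Idx))

lemma abs_ov_le (j : Spc) (A : Pat j.1) (ω : Cube) : |R j A ω| ≤ 1 := abs_le.2 (ω ⟨j, A⟩).2

/-- An observable is approximated in mean by continuous ones with the same bound. -/
lemma exists_approx (L : Lim) {n : ℕ} {f : Cube → ℝ} (hf : Obs n f) {D : ℝ} (hD : ∀ ω, |f ω| ≤ D)
    {ε : ℝ} (hε : 0 < ε) : ∃ g : Cube → ℝ, Continuous g ∧ DepBelow n g ∧ (∀ ω, |g ω| ≤ D) ∧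
      ∫ ω, |f ω - g ω| ∂L.P ≤ ε := by
  obtain ⟨⟨u, hu, rfl⟩, -⟩ := hf
  have hD0 : 0 ≤ D := (abs_nonneg _).trans (hD fun _ => ⟨0, by norm_num⟩)
  set ν := L.P.map (restr n)
  have hr : Measurable (restr n) := (continuous_restr n).measurable
  have : IsProbabilityMeasure ν := Measure.isProbabilityMeasure_map hr.aemeasurable
  set u' : CubeN n → ℝ := fun v => max (-D) (min D (u v))
  have hu' : Measurable u' := measurable_const.max (measurable_const.min hu)
  have hi : Integrable u' ν := Integrable.of_bound hu'.aestronglyMeasurable D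
    (Eventually.of_forall fun v => by
      rw [Real.norm_eq_abs, abs_le]
      exact ⟨le_max_left _ _, max_le (by linarith) (min_le_left _ _)⟩)
  obtain ⟨g, hg, hgi⟩ := hi.exists_boundedContinuous_integral_sub_le hε
  refine ⟨fun ω => max (-D) (min D (g (restr n ω))),
    continuous_const.max (continuous_const.min (g.continuous.comp (continuous_restr n))),
    fun ω ω' h => ?_, fun ω => abs_le.2 ⟨le_max_left _ _, max_le (by linarith) (min_le_left _ _)⟩,
    le_trans ?_ hg⟩
  · have e : restr n ω = restr n ω' := funext fun i => Subtype.ext (h i.1.1 i.1.2 i.2)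
    simp only [e]
  · have hm : Measurable fun v => ‖u' v - g v‖ := (hu'.sub g.continuous.measurable).norm
    rw [integral_map hr.aemeasurable hm.aestronglyMeasurable]
    refine integral_mono_of_nonneg (Eventually.of_forall fun ω => abs_nonneg _) ?_
      (Eventually.of_forall fun ω => ?_)
    · exact (integrable_map_measure hm.aestronglyMeasurable hr.aemeasurable).1 (hi.sub hgi).norm
    · have e : u' (restr n ω) = u (restr n ω) := by
        have := abs_le.1 (hD ω)
        simp only [Function.comp_apply] at this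
        simp only [u', min_eq_right this.2, max_eq_right this.1]
      simp only [Function.comp_apply, Real.norm_eq_abs, ← e]
      set a := u' (restr n ω)
      have ha : -D ≤ a ∧ a ≤ D := ⟨le_max_left _ _, max_le (by linarith) (min_le_left _ _)⟩
      have h1 : max (-D) (min D a) = a := by rw [min_eq_right ha.2, max_eq_right ha.1]
      calc |a - max (-D) (min D (g (restr n ω)))|
          = |max (-D) (min D a) - max (-D) (min D (g (restr n ω)))| := by rw [h1]
        _ ≤ |min D a - min D (g (restr n ω))| := by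
            simpa using abs_max_sub_max_le_max (-D) (min D a) (-D) (min D (g (restr n ω)))
        _ ≤ |a - g (restr n ω)| := by
            simpa using abs_min_sub_min_le_max D a D (g (restr n ω))

lemma obs_measurable {n : ℕ} {f : Cube → ℝ} (hf : Obs n f) : Measurable f := by
  obtain ⟨⟨u, hu, rfl⟩, -⟩ := hf
  exact hu.comp (continuous_restr n).measurable

lemma integrable_mul (L : Lim) {f : Cube → ℝ} (hf : Measurable f) {D : ℝ} (hD : ∀ ω, |f ω| ≤ D)
    {g : Cube → ℝ} (hg : Measurable g) (hg1 : ∀ ω, |g ω| ≤ 1) :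
    Integrable (fun ω => f ω * g ω) L.P :=
  Integrable.of_bound (hf.mul hg).aestronglyMeasurable D (Eventually.of_forall fun ω => by
    rw [Real.norm_eq_abs, abs_mul]
    exact (mul_le_of_le_one_right (abs_nonneg _) (hg1 ω)).trans (hD ω))

/-- Pairing with a bounded function moves by at most the mean distance. -/
lemma abs_pairing_sub_le (L : Lim) {f g h : Cube → ℝ} (hf : Measurable f) (hg : Measurable g)
    (hh : Measurable h) {D : ℝ} (hfD : ∀ ω, |f ω| ≤ D) (hgD : ∀ ω, |g ω| ≤ D)
    (h1 : ∀ ω, |h ω| ≤ 1) :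
    |∫ ω, f ω * h ω ∂L.P - ∫ ω, g ω * h ω ∂L.P| ≤ ∫ ω, |f ω - g ω| ∂L.P := by
  rw [← integral_sub (integrable_mul L hf hfD hh h1) (integrable_mul L hg hgD hh h1)]
  refine abs_integral_le_integral_abs.trans (integral_mono_of_nonneg
    (Eventually.of_forall fun ω => abs_nonneg _) ?_ (Eventually.of_forall fun ω => ?_))
  · exact Integrable.of_bound (hf.sub hg).abs.aestronglyMeasurable (D + D)
      (Eventually.of_forall fun ω => by
        rw [Real.norm_eq_abs, abs_abs]
        exact (abs_sub _ _).trans (add_le_add (hfD ω) (hgD ω)))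
  · show |f ω * h ω - g ω * h ω| ≤ |f ω - g ω|
    rw [← sub_mul, abs_mul]
    exact mul_le_of_le_one_right (abs_nonneg _) (h1 ω)

/-- Positions of the second of two species. -/
def joinSet {k k' : ℕ} (B : Finset (Fin k)) (B' : Finset (Fin k')) : Finset (Fin (k + k')) :=
  B.image (Fin.castAdd k') ∪ B'.image (Fin.natAdd k)

lemma cat_single {k k' : ℕ} (a : ℕ) (B : Finset (Fin k)) (B' : Finset (Fin k')) :
    cat (single a B) (single a B') = single a (joinSet B B') := by
  ext ⟨l, i⟩
  simp only [cat, single, joinSet, Finset.mem_union, Finset.mem_image, Finset.mem_product,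
    Finset.mem_singleton, Prod.exists, Prod.mk.injEq]
  aesop

lemma cat_symmDiff {k k' : ℕ} (A A' : Pat k) (B B' : Pat k') :
    cat (A ∆ A') (B ∆ B') = cat A B ∆ cat A' B' := by
  ext ⟨l, i⟩
  refine Fin.addCases (fun i => ?_) (fun i => ?_) i
  · have h : ∀ (P : Pat k) (Q : Pat k'), (l, Fin.castAdd k' i) ∈ cat P Q ↔ (l, i) ∈ P := by
      intro P Q
      simp only [cat, Finset.mem_union, Finset.mem_image, Prod.exists, Prod.mk.injEq]
      constructor
      · rintro (⟨a, b, hb, rfl, e⟩ | ⟨a, b, -, -, e⟩)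
        · rwa [← Fin.castAdd_injective _ _ e]
        · have h1 := congrArg Fin.val e
          simp only [Fin.val_natAdd, Fin.val_castAdd] at h1
          omega
      · exact fun h => Or.inl ⟨l, i, h, rfl, rfl⟩
    simp only [h, Finset.mem_symmDiff]
  · have h : ∀ (P : Pat k) (Q : Pat k'), (l, Fin.natAdd k i) ∈ cat P Q ↔ (l, i) ∈ Q := by
      intro P Q
      simp only [cat, Finset.mem_union, Finset.mem_image, Prod.exists, Prod.mk.injEq]
      constructor
      · rintro (⟨a, b, -, -, e⟩ | ⟨a, b, hb, rfl, e⟩)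
        · have h1 := congrArg Fin.val e
          simp only [Fin.val_natAdd, Fin.val_castAdd] at h1
          omega
        · rwa [← Fin.natAdd_injective _ _ e]
      · exact fun h => Or.inr ⟨l, i, h, rfl, rfl⟩
    simp only [h, Finset.mem_symmDiff]

lemma cat_pair {k k' : ℕ} (a b : ℕ) (B : Finset (Fin k)) (B' : Finset (Fin k')) :
    cat (pair a b B) (pair a b B') = pair a b (joinSet B B') := by
  rw [pair, pair, cat_symmDiff, cat_single, cat_single, pair]

/-- A product of pair overlaps is one pair overlap. -/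
lemma exists_pair_prod (L : Lim) {ι : Type} (sp : ι → Σ j : Spc, Finset (Fin j.1)) :
    ∀ l : List ι, ∃ q : Σ j : Spc, Finset (Fin j.1), ∀ a b : ℕ, ∀ᵐ ω ∂L.P,
      (l.map fun i => R (sp i).1 (pair a b (sp i).2) ω).prod = R q.1 (pair a b q.2) ω := by
  intro l
  induction l with
  | nil =>
    refine ⟨⟨Spc.free 0, ∅⟩, fun a b => ?_⟩
    filter_upwards [L.one (Spc.free 0)] with ω hω
    rw [List.map_nil, List.prod_nil]
    convert hω.symm using 2
    simp [pair, single]
  | cons i l ih =>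
    obtain ⟨q, hq⟩ := ih
    refine ⟨⟨(sp i).1.app q.1, joinSet (sp i).2 q.2⟩, fun a b => ?_⟩
    filter_upwards [hq a b, L.mult (sp i).1 q.1 (pair a b (sp i).2) (pair a b q.2)] with ω h1 h2
    rw [List.map_cons, List.prod_cons, h1, ← h2, cat_pair]

end Ext

variable (L : Lim)

/-- The derivative identity for observables. -/
theorem Lim.deriv_obs {n : ℕ} {f : Cube → ℝ} (hf : Obs n f) {D : ℝ} (hD : ∀ ω, |f ω| ≤ D) (j : Spc)
    (c : ℚ) (B : Finset (Fin j.1)) {A : Pat j.1} (hA : Below n A) :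
    |∫ ω, f ω * R (j.shift c B) A ω ∂L.P - ∫ ω, f ω * R j A ω ∂L.P -
        (c : ℝ) * (∑ l ∈ range n, ∫ ω, f ω * R j (flipPat A l B) ω ∂L.P -
          (n : ℝ) * ∫ ω, f ω * R j (flipPat A n B) ω ∂L.P)| ≤
      4 * ((n : ℝ) + 1) ^ 2 * D * (c : ℝ) ^ 2 := by
  set E : (Cube → ℝ) → ℝ := fun u => ∫ ω, u ω * R (j.shift c B) A ω ∂L.P -
    ∫ ω, u ω * R j A ω ∂L.P - (c : ℝ) * (∑ l ∈ range n, ∫ ω, u ω * R j (flipPat A l B) ω ∂L.P -
      (n : ℝ) * ∫ ω, u ω * R j (flipPat A n B) ω ∂L.P)
  show |E f| ≤ _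
  refine le_of_forall_pos_le_add fun ε hε => ?_
  set K : ℝ := 2 + |(c : ℝ)| * (2 * n)
  have hK : 0 < K := by positivity
  obtain ⟨g, hgc, hgd, hgD, hgi⟩ := Ext.exists_approx L hf hD (div_pos hε hK)
  have hg := L.deriv n g hgc hgd D hgD j c B A hA
  change |E g| ≤ _ at hg
  have hfm := Ext.obs_measurable hf
  have d : ∀ (j' : Spc) (A' : Pat j'.1),
      |∫ ω, f ω * R j' A' ω ∂L.P - ∫ ω, g ω * R j' A' ω ∂L.P| ≤ ε / K := fun j' A' =>
    (Ext.abs_pairing_sub_le L hfm hgc.measurable (Ext.continuous_ov j' A').measurable hD hgD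
      (Ext.abs_ov_le j' A')).trans hgi
  have hdiff : |E f - E g| ≤ ε := by
    have h1 := d (j.shift c B) A
    have h2 := d j A
    have h3 := d j (flipPat A n B)
    have h4 : |∑ l ∈ range n, ∫ ω, f ω * R j (flipPat A l B) ω ∂L.P -
        ∑ l ∈ range n, ∫ ω, g ω * R j (flipPat A l B) ω ∂L.P| ≤ n * (ε / K) := by
      rw [← Finset.sum_sub_distrib]
      refine (Finset.abs_sum_le_sum_abs _ _).trans ((Finset.sum_le_card_nsmul _ _ _ fun l _ =>
        d j (flipPat A l B)).trans_eq ?_)
      rw [Finset.card_range, nsmul_eq_mul]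
    have h5 : |(n : ℝ) * ∫ ω, f ω * R j (flipPat A n B) ω ∂L.P -
        n * ∫ ω, g ω * R j (flipPat A n B) ω ∂L.P| ≤ n * (ε / K) := by
      rw [← mul_sub, abs_mul, Nat.abs_cast]
      exact mul_le_mul_of_nonneg_left h3 (Nat.cast_nonneg n)
    have key : ∀ {a a' b b' s s' t t' : ℝ}, |a - a'| ≤ ε / K → |b - b'| ≤ ε / K →
        |s - s'| ≤ n * (ε / K) → |t - t'| ≤ n * (ε / K) →
        |(a - b - (c : ℝ) * (s - t)) - (a' - b' - (c : ℝ) * (s' - t'))| ≤ ε := by
      intro a a' b b' s s' t t' ha hb hs ht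
      have hst : |(s - s') - (t - t')| ≤ n * (ε / K) + n * (ε / K) :=
        (abs_sub _ _).trans (add_le_add hs ht)
      calc |(a - b - (c : ℝ) * (s - t)) - (a' - b' - (c : ℝ) * (s' - t'))|
          = |(a - a') - (b - b') - (c : ℝ) * ((s - s') - (t - t'))| := by ring_nf
        _ ≤ |(a - a') - (b - b')| + |(c : ℝ)| * |(s - s') - (t - t')| :=
            (abs_sub _ _).trans_eq (by rw [abs_mul])
        _ ≤ (ε / K + ε / K) + |(c : ℝ)| * (n * (ε / K) + n * (ε / K)) :=
            add_le_add ((abs_sub _ _).trans (add_le_add ha hb))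
              (mul_le_mul_of_nonneg_left hst (abs_nonneg _))
        _ = K * (ε / K) := by simp only [K]; ring
        _ = ε := mul_div_cancel₀ _ hK.ne'
    exact key h1 h2 h4 h5
  calc |E f| = |E g + (E f - E g)| := by ring_nf
    _ ≤ |E g| + |E f - E g| := abs_add_le _ _
    _ ≤ _ := add_le_add hg hdiff

/-- The identities for a single pair overlap and observables. -/
theorem Lim.gg_obs {n : ℕ} {f : Cube → ℝ} (hf : Obs n f) (j : Spc) (B : Finset (Fin j.1)) {l : ℕ}
    (hl : l < n) :
    (n : ℝ) * ∫ ω, f ω * R j (pair l n B) ω ∂L.P =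
      (∫ ω, f ω ∂L.P) * (∫ ω, R j (pair 0 1 B) ω ∂L.P) +
        ∑ l' ∈ (range n).erase l, ∫ ω, f ω * R j (pair l l' B) ω ∂L.P := by
  obtain ⟨D, hD⟩ := hf.bdd
  set E : (Cube → ℝ) → ℝ := fun u => (n : ℝ) * ∫ ω, u ω * R j (pair l n B) ω ∂L.P -
    ((∫ ω, u ω ∂L.P) * (∫ ω, R j (pair 0 1 B) ω ∂L.P) +
      ∑ l' ∈ (range n).erase l, ∫ ω, u ω * R j (pair l l' B) ω ∂L.P)
  suffices E f = 0 by simpa only [E, sub_eq_zero] using this
  refine abs_nonpos_iff.1 (le_of_forall_pos_le_add fun ε hε => ?_)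
  set K : ℝ := 2 * n + 1
  have hK : 0 < K := by positivity
  obtain ⟨g, hgc, hgd, hgD, hgi⟩ := Ext.exists_approx L hf hD (div_pos hε hK)
  have hg : E g = 0 := sub_eq_zero.2 (L.gg n g hgc hgd j B l hl)
  have hfm := Ext.obs_measurable hf
  have d : ∀ A' : Pat j.1, |∫ ω, f ω * R j A' ω ∂L.P - ∫ ω, g ω * R j A' ω ∂L.P| ≤ ε / K :=
    fun A' => (Ext.abs_pairing_sub_le L hfm hgc.measurable (Ext.continuous_ov j A').measurable hD hgD
      (Ext.abs_ov_le j A')).trans hgi
  have d1 : |∫ ω, f ω ∂L.P - ∫ ω, g ω ∂L.P| ≤ ε / K := by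
    have := (Ext.abs_pairing_sub_le L hfm hgc.measurable measurable_const hD hgD
      (h := fun _ => 1) fun _ => by simp).trans hgi
    simpa using this
  have hm : |∫ ω, R j (pair 0 1 B) ω ∂L.P| ≤ 1 := by
    refine (abs_integral_le_integral_abs).trans ?_
    refine (integral_mono_of_nonneg (Eventually.of_forall fun ω => abs_nonneg _) (integrable_const 1)
      (Eventually.of_forall fun ω => Ext.abs_ov_le j _ ω)).trans_eq (by simp)
  have h4 : |∑ l' ∈ (range n).erase l, ∫ ω, f ω * R j (pair l l' B) ω ∂L.P -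
      ∑ l' ∈ (range n).erase l, ∫ ω, g ω * R j (pair l l' B) ω ∂L.P| ≤ n * (ε / K) := by
    rw [← Finset.sum_sub_distrib]
    refine (Finset.abs_sum_le_sum_abs _ _).trans ((Finset.sum_le_card_nsmul _ _ _ fun l' _ =>
      d (pair l l' B)).trans ?_)
    rw [nsmul_eq_mul]
    refine mul_le_mul_of_nonneg_right ?_ (by positivity)
    exact_mod_cast (Finset.card_erase_le).trans (Finset.card_range n).le
  have key : ∀ {a a' b b' s s' m : ℝ}, |a - a'| ≤ ε / K → |b - b'| ≤ ε / K →
      |s - s'| ≤ n * (ε / K) → |m| ≤ 1 →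
      |((n : ℝ) * a - (b * m + s)) - ((n : ℝ) * a' - (b' * m + s'))| ≤ ε := by
    intro a a' b b' s s' m ha hb hs hm
    calc |((n : ℝ) * a - (b * m + s)) - ((n : ℝ) * a' - (b' * m + s'))|
        = |(n : ℝ) * (a - a') - ((b - b') * m + (s - s'))| := by ring_nf
      _ ≤ (n : ℝ) * |a - a'| + (|b - b'| * |m| + |s - s'|) :=
          (abs_sub _ _).trans (add_le_add (le_of_eq (by rw [abs_mul, Nat.abs_cast]))
            ((abs_add_le _ _).trans_eq (by rw [abs_mul])))
      _ ≤ (n : ℝ) * (ε / K) + (ε / K * 1 + n * (ε / K)) :=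
          add_le_add (mul_le_mul_of_nonneg_left ha (Nat.cast_nonneg n))
            (add_le_add (mul_le_mul hb hm (abs_nonneg _) (by positivity)) hs)
      _ = K * (ε / K) := by simp only [K]; ring
      _ = ε := mul_div_cancel₀ _ hK.ne'
  rw [zero_add]
  have := key (d (pair l n B)) d1 h4 hm
  rwa [show E f = E f - E g by rw [hg, sub_zero]]

/-- Ghirlanda–Guerra identities for functions of finitely many pair overlaps. -/
theorem Lim.gg_vec {ι : Type} [Fintype ι] (sp : ι → Σ j : Spc, Finset (Fin j.1)) {n : ℕ}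
    {f : Cube → ℝ} (hf : Obs n f) {ψ : (ι → ℝ) → ℝ} (hψ : Measurable ψ) {C : ℝ}
    (hC : ∀ v, |ψ v| ≤ C) {l : ℕ} (hl : l < n) :
    let v := fun a b ω i => R (sp i).1 (pair a b (sp i).2) ω
    (n : ℝ) * ∫ ω, f ω * ψ (v l n ω) ∂L.P =
      (∫ ω, f ω ∂L.P) * (∫ ω, ψ (v 0 1 ω) ∂L.P) +
        ∑ l' ∈ (range n).erase l, ∫ ω, f ω * ψ (v l l' ω) ∂L.P := by
  classical
  intro v
  obtain ⟨D, hD⟩ := hf.bdd
  have hfm := Ext.obs_measurable hf
  have hD0 : 0 ≤ D := (abs_nonneg _).trans (hD fun _ => ⟨0, by norm_num⟩)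
  set V := ι → ↥(Set.Icc (-1 : ℝ) 1)
  set u : ℕ → ℕ → Cube → V := fun a b ω i => ω ⟨(sp i).1, pair a b (sp i).2⟩
  have huc : ∀ a b, Continuous (u a b) := fun a b => by simp only [u]; fun_prop
  set m := ∫ ω, f ω ∂L.P
  have hm : |m| ≤ D := by
    have := norm_integral_le_of_norm_le_const (μ := L.P) (C := D) (f := f)
      (Eventually.of_forall fun ω => by rw [Real.norm_eq_abs]; exact hD ω)
    simpa [Real.norm_eq_abs, m] using this
  -- the defect as a functional of the test function
  set Λ : (V → ℝ) → ℝ := fun φ => (n : ℝ) * ∫ ω, f ω * φ (u l n ω) ∂L.P -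
    (m * ∫ ω, φ (u 0 1 ω) ∂L.P + ∑ l' ∈ (range n).erase l, ∫ ω, f ω * φ (u l l' ω) ∂L.P)
  have hint : ∀ (a b : ℕ) {φ : V → ℝ}, Measurable φ → (∃ E, ∀ x, |φ x| ≤ E) →
      Integrable (fun ω => f ω * φ (u a b ω)) L.P ∧ Integrable (fun ω => φ (u a b ω)) L.P := by
    rintro a b φ hφ ⟨E, hE⟩
    refine ⟨Integrable.of_bound (hfm.mul (hφ.comp (huc a b).measurable)).aestronglyMeasurable (D * E)
      (Eventually.of_forall fun ω => ?_),
      Integrable.of_bound (hφ.comp (huc a b).measurable).aestronglyMeasurable E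
      (Eventually.of_forall fun ω => by rw [Real.norm_eq_abs]; exact hE _)⟩
    rw [Real.norm_eq_abs, abs_mul]
    exact mul_le_mul (hD ω) (hE _) (abs_nonneg _) hD0
  -- distance of defects through one measure
  set ν : Measure V := L.P.map (u l n) + L.P.map (u 0 1) +
    ∑ l' ∈ (range n).erase l, L.P.map (u l l')
  have : ∀ a b, IsProbabilityMeasure (L.P.map (u a b)) := fun a b =>
    Measure.isProbabilityMeasure_map (huc a b).measurable.aemeasurable
  have hdist : ∀ {φ φ' : V → ℝ}, Measurable φ → Measurable φ' → ∀ {E : ℝ}, (∀ x, |φ x| ≤ E) →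
      (∀ x, |φ' x| ≤ E) → |Λ φ - Λ φ'| ≤ ((n : ℝ) + 1) * D * ∫ x, |φ x - φ' x| ∂ν := by
    intro φ φ' hφ hφ' E hE hE'
    have hd : Measurable fun x => |φ x - φ' x| := (hφ.sub hφ').abs
    have hdi : ∀ μ : Measure V, IsFiniteMeasure μ → Integrable (fun x => |φ x - φ' x|) μ :=
      fun μ _ => Integrable.of_bound hd.aestronglyMeasurable (E + E) (Eventually.of_forall fun x => by
        rw [Real.norm_eq_abs, abs_abs]; exact (abs_sub _ _).trans (add_le_add (hE x) (hE' x)))
    set I : ℕ → ℕ → ℝ := fun a b => ∫ x, |φ x - φ' x| ∂L.P.map (u a b)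
    have hIeq : ∀ a b, I a b = ∫ ω, |φ (u a b ω) - φ' (u a b ω)| ∂L.P := fun a b =>
      integral_map (huc a b).measurable.aemeasurable hd.aestronglyMeasurable
    have hν : ∫ x, |φ x - φ' x| ∂ν = I l n + I 0 1 + ∑ l' ∈ (range n).erase l, I l l' := by
      simp only [ν]
      rw [integral_add_measure (hdi _ inferInstance) (hdi _ inferInstance),
        integral_add_measure (hdi _ inferInstance) (hdi _ inferInstance),
        integral_finsetSum_measure fun i _ => hdi _ inferInstance]
    have hb : ∀ a b, |∫ ω, f ω * φ (u a b ω) ∂L.P - ∫ ω, f ω * φ' (u a b ω) ∂L.P| ≤ D * I a b := by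
      intro a b
      rw [← integral_sub (hint a b hφ ⟨E, hE⟩).1 (hint a b hφ' ⟨E, hE'⟩).1, hIeq,
        ← integral_const_mul]
      refine abs_integral_le_integral_abs.trans (integral_mono_of_nonneg
        (Eventually.of_forall fun ω => abs_nonneg _)
        (((hint a b hφ ⟨E, hE⟩).2.sub (hint a b hφ' ⟨E, hE'⟩).2).abs.const_mul D)
        (Eventually.of_forall fun ω => ?_))
      show |f ω * φ (u a b ω) - f ω * φ' (u a b ω)| ≤ D * |φ (u a b ω) - φ' (u a b ω)|
      rw [← mul_sub, abs_mul]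
      exact mul_le_mul_of_nonneg_right (hD ω) (abs_nonneg _)
    have h01 : |∫ ω, φ (u 0 1 ω) ∂L.P - ∫ ω, φ' (u 0 1 ω) ∂L.P| ≤ I 0 1 := by
      rw [← integral_sub (hint 0 1 hφ ⟨E, hE⟩).2 (hint 0 1 hφ' ⟨E, hE'⟩).2, hIeq]
      exact abs_integral_le_integral_abs
    have hI0 : ∀ a b, 0 ≤ I a b := fun a b => integral_nonneg fun x => abs_nonneg _
    have hs : |∑ l' ∈ (range n).erase l, ∫ ω, f ω * φ (u l l' ω) ∂L.P -
        ∑ l' ∈ (range n).erase l, ∫ ω, f ω * φ' (u l l' ω) ∂L.P| ≤
        D * ∑ l' ∈ (range n).erase l, I l l' := by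
      rw [← Finset.sum_sub_distrib, Finset.mul_sum]
      exact (Finset.abs_sum_le_sum_abs _ _).trans (Finset.sum_le_sum fun l' _ => hb l l')
    have key : ∀ {a a' b b' s s' A B S : ℝ}, |a - a'| ≤ D * A → |b - b'| ≤ B →
        |s - s'| ≤ D * S → 0 ≤ A → 0 ≤ B → 0 ≤ S →
        |((n : ℝ) * a - (m * b + s)) - ((n : ℝ) * a' - (m * b' + s'))| ≤
          ((n : ℝ) + 1) * D * (A + B + S) := by
      intro a a' b b' s s' A B S ha hb' hs' hA hB hS
      calc |((n : ℝ) * a - (m * b + s)) - ((n : ℝ) * a' - (m * b' + s'))|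
          = |(n : ℝ) * (a - a') - (m * (b - b') + (s - s'))| := by ring_nf
        _ ≤ (n : ℝ) * |a - a'| + (|m| * |b - b'| + |s - s'|) :=
            (abs_sub _ _).trans (add_le_add (le_of_eq (by rw [abs_mul, Nat.abs_cast]))
              ((abs_add_le _ _).trans_eq (by rw [abs_mul])))
        _ ≤ (n : ℝ) * (D * A) + (D * B + D * S) :=
            add_le_add (mul_le_mul_of_nonneg_left ha (Nat.cast_nonneg n))
              (add_le_add (mul_le_mul hm hb' (abs_nonneg _) hD0) hs')
        _ ≤ _ := by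
            have h1 : 0 ≤ (n : ℝ) * D * (B + S) := by positivity
            have h2 : 0 ≤ D * A := mul_nonneg hD0 hA
            nlinarith
    rw [hν]
    exact key (hb l n) h01 hs (hI0 _ _) (hI0 _ _) (Finset.sum_nonneg fun l' _ => hI0 _ _)
  -- monomials
  have hmon : ∀ t : List ι, Λ (fun x => (t.map fun i => (x i : ℝ)).prod) = 0 := by
    intro t
    obtain ⟨q, hq⟩ := Ext.exists_pair_prod L sp t
    have e : ∀ a b, (∀ᵐ ω ∂L.P, (t.map fun i => ((u a b ω) i : ℝ)).prod = R q.1 (pair a b q.2) ω) :=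
      fun a b => hq a b
    simp only [Λ]
    rw [integral_congr_ae (g := fun ω => f ω * R q.1 (pair l n q.2) ω)
        ((e l n).mono fun ω h => by simp only [h]),
      integral_congr_ae (g := fun ω => R q.1 (pair 0 1 q.2) ω) (e 0 1),
      Finset.sum_congr rfl fun l' _ => integral_congr_ae
        (g := fun ω => f ω * R q.1 (pair l l' q.2) ω) ((e l l').mono fun ω h => by simp only [h])]
    exact sub_eq_zero.2 (L.gg_obs hf q.1 q.2 hl)
  -- continuous test functions
  have hbd : ∀ φ : C(V, ℝ), ∀ x, |φ x| ≤ ‖φ‖ := fun φ x =>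
    (Real.norm_eq_abs _).symm.le.trans (φ.norm_coe_le_norm x)
  have hadd : ∀ φ φ' : C(V, ℝ), Λ ⇑(φ + φ') = Λ ⇑φ + Λ ⇑φ' := by
    intro φ φ'
    simp only [Λ, ContinuousMap.add_apply, mul_add]
    rw [integral_add (hint l n φ.continuous.measurable ⟨_, hbd φ⟩).1
        (hint l n φ'.continuous.measurable ⟨_, hbd φ'⟩).1,
      integral_add (hint 0 1 φ.continuous.measurable ⟨_, hbd φ⟩).2
        (hint 0 1 φ'.continuous.measurable ⟨_, hbd φ'⟩).2,
      Finset.sum_congr rfl fun l' _ => integral_add (hint l l' φ.continuous.measurable ⟨_, hbd φ⟩).1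
        (hint l l' φ'.continuous.measurable ⟨_, hbd φ'⟩).1, Finset.sum_add_distrib]
    ring
  have hsmul : ∀ (a : ℝ) (φ : C(V, ℝ)), Λ ⇑(a • φ) = a * Λ ⇑φ := by
    intro a φ
    simp only [Λ, ContinuousMap.smul_apply, smul_eq_mul, mul_left_comm _ a, integral_const_mul,
      ← Finset.mul_sum]
    ring
  set coord : ι → C(V, ℝ) := fun i => ⟨fun x => (x i : ℝ), by fun_prop⟩
  set S : Subalgebra ℝ C(V, ℝ) := Algebra.adjoin ℝ (Set.range coord)
  have hS : ∀ φ ∈ S, Λ ⇑φ = 0 := by
    intro φ hφ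
    have hφ' : φ ∈ Submodule.span ℝ (Submonoid.closure (Set.range coord) : Set C(V, ℝ)) := by
      rw [← Algebra.adjoin_eq_span]
      exact hφ
    clear hφ
    induction hφ' using Submodule.span_induction with
    | mem x hx =>
      obtain ⟨t, ht, rfl⟩ := Submonoid.exists_list_of_mem_closure hx
      choose idx hidx using ht
      set t' : List ι := t.attach.map fun y => idx y.1 y.2
      have et : t = t'.map coord := by
        simp only [t', List.map_map]
        conv_lhs => rw [← List.attach_map_subtype_val t]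
        exact List.map_congr_left fun y _ => (hidx y.1 y.2).symm
      have ecoe : ∀ (s : List ι) (x : V), (s.map coord).prod x = (s.map fun i => (x i : ℝ)).prod := by
        intro s x
        induction s with
        | nil => simp
        | cons i s ih => simp [ih, coord]
      have : (⇑t.prod : V → ℝ) = fun x => (t'.map fun i => (x i : ℝ)).prod := by
        funext x; rw [et, ecoe]
      rw [this]
      exact hmon t'
    | zero => simp [Λ]
    | add x y _ _ hx hy => rw [hadd, hx, hy, add_zero]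
    | smul a x _ hx => rw [hsmul, hx, mul_zero]
  have hsep : S.SeparatesPoints := fun x y hxy => by
    obtain ⟨i, hi⟩ := Function.ne_iff.1 hxy
    exact ⟨_, ⟨coord i, Algebra.subset_adjoin ⟨i, rfl⟩, rfl⟩, fun h => hi (Subtype.ext h)⟩
  have hcont : ∀ φ : C(V, ℝ), Λ ⇑φ = 0 := by
    intro φ
    refine abs_nonpos_iff.1 (le_of_forall_pos_le_add fun ε hε => ?_)
    set K : ℝ := ((n : ℝ) + 1) * D * ν.real Set.univ + 1
    have hK : 0 < K := by positivity
    obtain ⟨⟨g, hgS⟩, hg⟩ := ContinuousMap.exists_mem_subalgebra_near_continuousMap_of_separatesPoints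
      S hsep φ (ε / K) (div_pos hε hK)
    have h := hdist φ.continuous.measurable g.continuous.measurable
      (E := ‖φ‖ + ‖g‖) (fun x => (hbd φ x).trans (le_add_of_nonneg_right (norm_nonneg _)))
      fun x => (hbd g x).trans (le_add_of_nonneg_left (norm_nonneg _))
    rw [hS g hgS, sub_zero] at h
    rw [zero_add]
    refine h.trans ?_
    have hle : ∫ x, |φ x - g x| ∂ν ≤ ε / K * ν.real Set.univ := by
      have := norm_integral_le_of_norm_le_const (μ := ν) (C := ε / K) (f := fun x => |φ x - g x|)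
        (Eventually.of_forall fun x => by
          rw [Real.norm_eq_abs, abs_abs]
          have h1 := (g - φ).norm_coe_le_norm x
          rw [Real.norm_eq_abs, ContinuousMap.sub_apply, abs_sub_comm] at h1
          exact h1.trans hg.le)
      exact (le_abs_self _).trans ((Real.norm_eq_abs _).symm.le.trans this)
    calc ((n : ℝ) + 1) * D * ∫ x, |φ x - g x| ∂ν
        ≤ ((n : ℝ) + 1) * D * (ε / K * ν.real Set.univ) := mul_le_mul_of_nonneg_left hle (by positivity)
      _ = (ε / K) * (((n : ℝ) + 1) * D * ν.real Set.univ) := by ring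
      _ ≤ (ε / K) * K := mul_le_mul_of_nonneg_left (by simp [K]) (by positivity)
      _ = ε := div_mul_cancel₀ _ hK.ne'
  -- measurable test functions
  set ψ' : V → ℝ := fun x => ψ fun i => (x i : ℝ)
  have hψ' : Measurable ψ' := hψ.comp (measurable_pi_lambda _ fun i =>
    measurable_subtype_coe.comp (measurable_pi_apply i))
  suffices Λ ψ' = 0 by exact sub_eq_zero.1 this
  refine abs_nonpos_iff.1 (le_of_forall_pos_le_add fun ε hε => ?_)
  set K : ℝ := ((n : ℝ) + 1) * D + 1
  have hK : 0 < K := by positivity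
  have hψi : Integrable ψ' ν := Integrable.of_bound hψ'.aestronglyMeasurable C
    (Eventually.of_forall fun x => by rw [Real.norm_eq_abs]; exact hC _)
  obtain ⟨g, hg, -⟩ := hψi.exists_boundedContinuous_integral_sub_le (div_pos hε hK)
  have h := hdist hψ' g.continuous.measurable (E := |C| + ‖g‖)
    (fun x => ((hC _).trans (le_abs_self _)).trans (le_add_of_nonneg_right (norm_nonneg _)))
    fun x => ((Real.norm_eq_abs _).symm.le.trans (g.norm_coe_le_norm x)).trans
      (le_add_of_nonneg_left (abs_nonneg _))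
  rw [show Λ ⇑g = 0 from hcont g.toContinuousMap, sub_zero] at h
  rw [zero_add]
  refine h.trans ?_
  simp only [Real.norm_eq_abs] at hg
  calc ((n : ℝ) + 1) * D * ∫ x, |ψ' x - g x| ∂ν
      ≤ ((n : ℝ) + 1) * D * (ε / K) := mul_le_mul_of_nonneg_left hg (by positivity)
    _ ≤ K * (ε / K) := mul_le_mul_of_nonneg_right (by simp [K]) (by positivity)
    _ = ε := mul_div_cancel₀ _ hK.ne'

/-- Renaming replicas keeps integrals. -/
theorem Lim.integral_relabel {e : ℕ → ℕ} (he : Function.Injective e) {f : Cube → ℝ}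
    (hf : Measurable f) : ∫ ω, f (relabel e ω) ∂L.P = ∫ ω, f ω ∂L.P := by
  conv_rhs => rw [← L.inv e he]
  exact (integral_map (measurable_pi_lambda (relabel e) fun i => measurable_pi_apply _ :
    Measurable (relabel e)).aemeasurable hf.aestronglyMeasurable).symm

end Vale.Agent.P168
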