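import Vale.Agent.P168.Sync.Ext
import Vale.Agent.P157.Low.Ultra
import Vale.Agent.P168.Sync.Cross

/-!
P168: all pair overlaps are Lipschitz functions of one tree of overlaps.
-/

namespace Vale.Agent.P168

open MeasureTheory

variable (L : Lim)

/-- Weights exist. -/
theorem exists_weights : ∃ w, Weights w := by
  have : Encodable (Σ j : Spc, Finset (Fin j.1)) := Encodable.ofCountable _
  have : Nonempty (Σ j : Spc, Finset (Fin j.1)) := ⟨⟨Spc.free 0, ∅⟩⟩
  set u : (Σ j : Spc, Finset (Fin j.1)) → ℝ := fun i => ((1 : ℝ) / 2) ^ Encodable.encode i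
  have hu : Summable u := summable_geometric_two.comp_injective Encodable.encode_injective
  have hpos : ∀ i, 0 < u i := fun i => by positivity
  have hs : 0 < ∑' i, u i := hu.tsum_pos (fun i => (hpos i).le) (Classical.arbitrary _) (hpos _)
  refine ⟨fun i => u i / ∑' i, u i, fun i => div_pos (hpos i) hs, ?_⟩
  simpa [div_self hs.ne'] using hu.hasSum.div_const (∑' i, u i)

/-- A combination with positive weights is a tree. -/
theorem ggTree_comb {w : (Σ j : Spc, Finset (Fin j.1)) → ℝ} (hw : Weights w) :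
    GGTree L (comb w) := by
  have h0 := fun i => (hw.pos i).le
  refine ⟨fun a b n ha hb => obs_comb h0 hw.sum ha hb, fun a b ω => ?_,
    fun a b hab => tree_nonneg L h0 hw.sum hab, fun a b => ae_of_all _ fun ω => ?_,
    fun a b c hab hbc hac => tree_ultra L h0 hw.sum a b c hab hbc hac,
    fun e he a b ω => comb_equiv he a b ω, ?_⟩
  · exact ⟨le_max_left _ _, max_le (by norm_num) (min_le_left _ _)⟩
  · rw [comb_eq_cmb, comb_eq_cmb, pairs_comm]
  · intro n f hf ψ hψ ⟨C, hC⟩ l hl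
    exact gg_pairs L hf hl (hψ.comp (measurable_cmb h0 hw.sum)) (C := C) fun u => hC _

/-- The tree is an array of overlaps. -/
theorem exists_arr {w : (Σ j : Spc, Finset (Fin j.1)) → ℝ} (hw : Weights w) :
    ∃ A : Vale.Agent.P157.Low.Arr, ∀ n, A.law n = L.P.map (matS (comb w) n) :=
  arr_of_weights L (fun i => (hw.pos i).le) hw.sum

/-- A monotone image of a tree is a tree. -/
theorem GGTree.map {X : ℕ → ℕ → Cube → ℝ} (hX : GGTree L X) {τ : ℝ → ℝ} (hτ : Monotone τ)
    (h01 : ∀ t, τ t ∈ Set.Icc (0 : ℝ) 1) : GGTree L fun a b ω => τ (X a b ω) := by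
  refine ⟨fun a b n ha hb => ?_, fun a b ω => ⟨by linarith [(h01 (X a b ω)).1], (h01 _).2⟩,
    fun a b _ => ae_of_all _ fun ω => (h01 _).1, fun a b => ?_, fun a b c hab hbc hac => ?_,
    fun e he a b ω => ?_, ?_⟩
  · obtain ⟨g, hg, he⟩ := (hX.obs a b n ha hb).fac
    exact ⟨⟨fun r => τ (g r), hτ.measurable.comp hg, by rw [he]; rfl⟩, 1,
      fun ω => abs_le.2 ⟨by linarith [(h01 (X a b ω)).1], (h01 _).2⟩⟩
  · filter_upwards [hX.symm a b] with ω hω
    rw [hω]
  · filter_upwards [hX.ultra a b c hab hbc hac] with ω hω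
    rw [← hτ.map_min]
    exact hτ hω
  · rw [hX.equiv e he a b ω]
  · intro n f hf ψ hψ ⟨C, hC⟩ l hl
    exact hX.gg n f hf (fun t => ψ (τ t)) (hψ.comp hτ.measurable) ⟨C, fun t => hC _⟩ l hl

/-- Synchronisation. -/
theorem exists_sync {w : (Σ j : Spc, Finset (Fin j.1)) → ℝ} (hw : Weights w) (j : Spc)
    (B : Finset (Fin j.1)) : ∃ (W : ℝ) (F : ℝ → ℝ), 0 ≤ W ∧ (∀ s t, |F s - F t| ≤ W * |s - t|) ∧
      ∀ a b, a ≠ b → ∀ᵐ ω ∂L.P, R j (pair a b B) ω = F (comb w a b ω) := by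
  obtain ⟨F, hF, hae⟩ := exists_lipschitz L hw ⟨j, B⟩
  refine ⟨(w ⟨j, B⟩)⁻¹, F, inv_nonneg.2 (hw.pos _).le, hF, fun a b hab => ?_⟩
  rw [← map_pairs L hab] at hae
  filter_upwards [ae_of_ae_map (measurable_pairs a b).aemeasurable hae] with ω hω
  exact hω

end Vale.Agent.P168
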